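import Vale.Agent.P292.X.Nom
import Vale.Agent.P276R.F.Dim

/-! P292 block X: a pair of lines gives a good conic. See `notes/P292.md`. -/

open Polynomial Set Matrix

noncomputable section

namespace Vale.Agent.P292

open Vale.Agent.P271 Vale.Agent.P276

variable {K : Type} [Field K] [Algebra ℂ K] {N n m : ℕ} {t : Fin (N + 1) → K} {S : Cn K N}
  {W W' κ : Type} [Field W] [Algebra ℂ W] [Field W'] [Algebra ℂ W'] [Field κ] [Algebra ℂ κ]
  {R₁ R₂ : Fin S.M → W[X]} {z : Fin S.M → W} {A : Set W}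

theorem xp_ov (P : Place ℂ W κ) {σ : Type} [Fintype σ] {x : σ → W} {y : σ → κ} (hx : P.RedV x y)
    (h : rk (range x) ≤ rk (range y)) {a : W} (ha : a ∈ cl (range x)) (h0 : a ≠ 0) :
    P.O.valuation a = 1 := by
  have hs : Sp ℂ y x := sp_of_indep hx.sp fun k hk =>
    (indep_iff_rk (finite_range y)).2 (((indep_iff_rk (finite_range x)).1 hk).trans h)
  obtain ⟨a', h1, h2⟩ := P.red_alg hx hs (mem_cl.1 ha)
  exact h1.val_eq_one (h2 h0)

theorem xp_sc_sub {B : Set W} {ρ : W} (hρ : ρ ∈ cl B) (hz : range z ⊆ cl B) :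
    range (S.sc ρ z) ⊆ cl B := by
  rintro _ ⟨i, rfl⟩
  exact mul_mem (pow_mem hρ _) (hz ⟨i, rfl⟩)

theorem xp_pj_sub (z : Fin S.M → W) : pj (z ∘ S.e0) ⊆ cl (range z) :=
  (pj_sub _).trans (cl_mono (range_comp_subset_range _ _))

theorem xp_fresh (hS : S.Ok t n m) (hz : S.On z) (h0 : z ≠ 0) (hA : A.Finite) {ρ : W}
    (hρ : ρ ∉ cl (A ∪ range z)) : rk (A ∪ pj (z ∘ S.e0)) + 1 ≤ rk (A ∪ range (S.sc ρ z)) := by
  have hd : m * (n + 1) ≠ 0 := Nat.mul_ne_zero hS.fano.pos.ne' (Nat.succ_ne_zero n)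
  have r0 : ρ ≠ 0 := fun e => hρ (e ▸ zero_mem _)
  obtain ⟨j, hj⟩ := Function.ne_iff.1 (e0_ne hS hz h0)
  have hj' : z (S.e0 j) ≠ 0 := hj
  have h1 : A ∪ pj (z ∘ S.e0) ⊆ cl (A ∪ range z) :=
    union_subset (subset_union_left.trans (subset_cl _))
      ((xp_pj_sub z).trans (cl_mono subset_union_right))
  have h2 : S.sc ρ z (S.e0 j) ∉ cl (A ∪ pj (z ∘ S.e0)) := fun h => hρ <| by
    have h3 : S.sc ρ z (S.e0 j) ∈ cl (A ∪ range z) := cl_le h1 h
    have h4 : z (S.e0 j) ∈ cl (A ∪ range z) := subset_cl _ (Or.inr ⟨_, rfl⟩)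
    have h5 : ρ ^ (m * (n + 1)) = S.sc ρ z (S.e0 j) / z (S.e0 j) := by
      rw [eq_div_iff hj', Cn.sc, hS.we0]
    exact cl_pow hd (h5 ▸ div_mem h3 h4)
  rw [← rk_insert (hA.union (pj_finite _)) h2]
  refine rk_mono (hA.union (finite_range _)) (insert_subset (subset_cl _ (Or.inr ⟨_, rfl⟩))
    (union_subset (subset_union_left.trans (subset_cl _)) ?_))
  have h6 : pj (z ∘ S.e0) = pj (S.sc ρ z ∘ S.e0) := by
    rw [x_sc_e0 hS, pj_smul (pow_ne_zero _ r0)]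
  rw [h6]
  exact (xp_pj_sub _).trans (cl_mono subset_union_right)

theorem xp_line {R : Fin S.M → W[X]} (h : S.LC 1 R) {ρ l : W} (hρ : ρ ≠ 0) (hl : l ≠ 0) :
    ∃ Q : Fin S.M → W[X], S.LC 1 Q ∧ cv Q 0 = S.sc ρ (cv R 0) ∧
      S.top 1 Q = S.sc l (S.top 1 R) := by
  obtain ⟨h1, h2, h3, -⟩ := h.scP hρ
  obtain ⟨h4, h5, h6, -⟩ := h1.dil (div_ne_zero hl hρ)
  refine ⟨_, h4, h5.trans (h2 0), ?_⟩
  rw [h6, h3, x_sc_sc, pow_one, div_mul_cancel₀ _ hρ]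

theorem xp_top {δ : ℕ} {G : Fin S.M → W[X]} (h : S.LC δ G) : S.On (S.top δ G) := by
  obtain ⟨h1, h2, -⟩ := h.rev
  exact h2 ▸ h1.cv_on.1

theorem xp_norm (hS : S.Ok t n m) (hW : Big W) (h : S.Pair n R₁ R₂) :
    ∃ Q₁ Q₂ : Fin S.M → W[X], S.LC 1 Q₁ ∧ S.LC 1 Q₂ ∧ S.top 1 Q₁ = S.top 1 Q₂ ∧
      4 * n + 3 ≤ rk (range (cv Q₁ 0) ∪ range (cv Q₂ 0)) ∧
      4 * n + 4 ≤ rk (range (S.top 1 Q₁) ∪ range (cv Q₁ 0) ∪ range (cv Q₂ 0)) := by
  obtain ⟨h1, h2, ht, hr⟩ := h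
  obtain ⟨a, ha⟩ : ∃ a, a = cv R₁ 0 := ⟨_, rfl⟩
  obtain ⟨b, hb⟩ : ∃ b, b = cv R₂ 0 := ⟨_, rfl⟩
  have c1 := h1.cv_on
  have c2 := h2.cv_on
  rw [← ha] at hr c1
  rw [← hb] at hr c2
  let T : Set W := range a ∪ range b ∪ range (S.top 1 R₁)
  have hf : T.Finite := ((finite_range _).union (finite_range _)).union (finite_range _)
  obtain ⟨ρ₁, e1⟩ := exists_fresh hW hf
  obtain ⟨ρ₂, e2⟩ := exists_fresh hW (hf.insert ρ₁)
  obtain ⟨l, e3⟩ := exists_fresh hW ((hf.insert ρ₁).insert ρ₂)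
  have ta : range a ⊆ cl T := (subset_union_left.trans subset_union_left).trans (subset_cl T)
  have tb : range b ⊆ cl T := (subset_union_right.trans subset_union_left).trans (subset_cl T)
  have tz : range (S.top 1 R₁) ⊆ cl T := subset_union_right.trans (subset_cl T)
  have i1 : (cl T : Set W) ⊆ cl (insert ρ₁ T) := cl_mono (subset_insert _ _)
  have i2 : (cl (insert ρ₁ T) : Set W) ⊆ cl (insert ρ₂ (insert ρ₁ T)) := cl_mono (subset_insert _ _)
  have ta' : range (S.sc ρ₁ a) ⊆ cl (insert ρ₁ T) :=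
    xp_sc_sub (subset_cl _ (mem_insert _ _)) (ta.trans i1)
  have tb' : range (S.sc ρ₂ b) ⊆ cl (insert ρ₂ (insert ρ₁ T)) :=
    xp_sc_sub (subset_cl _ (mem_insert _ _)) (tb.trans (i1.trans i2))
  obtain ⟨Q₁, q1, q2, q3⟩ := xp_line h1 (ρ := ρ₁) (l := l) (fun e => e1 (e ▸ zero_mem _))
    fun e => e3 (e ▸ zero_mem _)
  obtain ⟨Q₂, q4, q5, q6⟩ := xp_line h2 (ρ := ρ₂) (l := l) (fun e => e2 (e ▸ zero_mem _))
    fun e => e3 (e ▸ zero_mem _)
  have s1 := xp_fresh hS c1.1 c1.2.1 (pj_finite (b ∘ S.e0)) (ρ := ρ₁)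
    fun h => e1 (cl_le (union_subset ((xp_pj_sub b).trans (cl_le tb)) ta) h)
  have s2 := xp_fresh hS c2.1 c2.2.1 (finite_range (S.sc ρ₁ a)) (ρ := ρ₂)
    fun h => e2 (cl_le (union_subset ta' (tb.trans i1)) h)
  have hA : (range (S.sc ρ₁ a) ∪ range (S.sc ρ₂ b)).Finite :=
    (finite_range _).union (finite_range _)
  have s3 := xp_fresh hS (xp_top h1) h1.top hA (ρ := l)
    fun h => e3 (cl_le (union_subset (union_subset (ta'.trans i2) tb')
      (tz.trans (i1.trans i2))) h)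
  have s4 : rk (range (S.sc ρ₁ a) ∪ range (S.sc ρ₂ b)) ≤
      rk (range (S.sc ρ₁ a) ∪ range (S.sc ρ₂ b) ∪ pj (S.top 1 R₁ ∘ S.e0)) :=
    rk_mono (hA.union (pj_finite _)) (subset_union_left.trans (subset_cl _))
  rw [union_comm (pj _)] at s1
  rw [union_comm (pj _) (range _)] at s1
  refine ⟨Q₁, Q₂, q1, q4, by rw [q3, q6, ht], ?_, ?_⟩
  · rw [q2, q5, ← ha, ← hb]
    omega
  · rw [q2, q5, ← ha, ← hb, q3, union_assoc, union_comm (range (S.sc l _))]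
    omega

theorem xp_map [IsAlgClosed W] (h : S.Pair n R₁ R₂) (f : W →ₐ[ℂ] W') :
    S.Pair n (fun i => (R₁ i).map (f : W →+* W')) fun i => (R₂ i).map (f : W →+* W') := by
  obtain ⟨h1, h2, ht, hr⟩ := h
  refine ⟨h1.map f, h2.map f, funext fun i => ?_, ?_⟩
  · have e := congrFun ht i
    simp only [Cn.top, coeff_map] at e ⊢
    rw [e]
  · have e : ∀ R : Fin S.M → W[X], cv (fun i => (R i).map (f : W →+* W')) 0 ∘ S.e0 =
        fun j => f ((cv R 0 ∘ S.e0) j) := fun R => funext fun j => coeff_map _ _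
    rw [e, e, pj_map, pj_map, ← image_union, rk_image]
    exact hr

theorem xp_fl [IsAlgClosed W] (hS : S.Ok t n m) (h2 : S.LC 1 R₂) (ht : S.top 1 R₁ = S.top 1 R₂)
    (hr : 4 * n + 4 ≤ rk (range (S.top 1 R₁) ∪ range (cv R₁ 0) ∪ range (cv R₂ 0))) :
    3 * n + 3 ≤ rk (S.ends 1 R₁) := by
  have h := line_rk hS h2 (A := range (S.top 1 R₁) ∪ range (cv R₁ 0))
    ((finite_range _).union (finite_range _)) (ht ▸ subset_union_left.trans (subset_cl _))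
  rw [Cn.ends, union_comm]
  omega

theorem xp_big [IsAlgClosed W] (hS : S.Ok t n m) (hW : Big W) (h : S.Pair n R₁ R₂) :
    ∃ (V : Type) (_ : Field V) (_ : Algebra ℂ V) (_ : IsAlgClosed V) (G₀ : Fin S.M → V[X]),
      Big V ∧ S.Good n G₀ := by
  obtain ⟨Q₁, Q₂, h1, h2, ht, r3, r4⟩ := xp_norm hS hW h
  have hn := hS.npos
  have hz := x_rk_node hS h1 h2 ht r4
  have h0 : S.nom Q₁ Q₂ ≠ 0 := fun e => by
    have h3 := gnode hS h1 h2 ht r4 e
    omega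
  obtain ⟨V, κ, _, _, _, _, _, _, _, _, _, _, P, G, u, hG, hN⟩ :=
    smooth2 hS h1 h2 ht (x_gen_of_big hS (xp_top h1) h1.top hz)
  let f : W →ₐ[ℂ] κ := IsScalarTower.toAlgHom ℂ W κ
  have hN' : S.Node (P.res ℂ) G u (fun i => (Q₁ i).map (f : W →+* κ))
    fun i => (Q₂ i).map (f : W →+* κ) := hN
  obtain ⟨r, e1, e2⟩ := node_est hS hG (P.res ℂ) hN'.ne hN'.lt hN'.r1 hN'.r2 hN'.l1.top
  rw [x_nom_map hS h1 h2 ht f] at e2
  have f0 : f (S.nom Q₁ Q₂) ≠ 0 := (map_ne_zero f).2 h0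
  have r0 : r ≠ 0 := e2.elim (fun e => e ▸ f0) fun e => e ▸ neg_ne_zero.2 f0
  have a0 : S.Av G ≠ 0 := fun e => e1.left_ne r0 (by rw [e, zero_div])
  have a1 : (P.res ℂ).O.valuation (S.Av G) < 1 := by
    rw [← div_mul_cancel₀ (S.Av G) hN'.ne, map_mul, e1.val_eq_one r0, one_mul]
    exact hN'.lt
  have ec : ∀ R : Fin S.M → W[X], range (cv (fun i => (R i).map (f : W →+* κ)) 0) =
      f '' range (cv R 0) := fun R => by
    rw [← range_comp]
    exact congrArg range (funext fun j => coeff_map _ _)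
  have hred : (P.res ℂ).RedV (Sum.elim (cv G 0) (S.top 2 G))
      (Sum.elim (cv (fun i => (Q₁ i).map (f : W →+* κ)) 0)
        (cv (fun i => (Q₂ i).map (f : W →+* κ)) 0)) := by
    rintro (i | i)
    · have e := hN'.r1 i 0
      have e' := congrFun (hG.dil hN'.ne).2.1 i
      rw [cv] at e'
      rw [e'] at e
      exact e
    · have e := hN'.r2 i 0
      have e' := congrFun ((hG.rev.1.dil hN'.ne).2.1.trans hG.rev.2.1) i
      rw [cv] at e'
      rw [e'] at e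
      exact e
  have r5 : 4 * n + 4 ≤ rk (S.ends 2 G) := by
    by_contra hc
    refine a1.ne (xp_ov (P.res ℂ) hred ?_ ?_ a0)
    · rw [Sum.elim_range, Sum.elim_range, ec, ec, ← image_union, rk_image]
      rw [Cn.ends] at hc
      omega
    · rw [Sum.elim_range]
      exact cl_le (con_rigid hS hG a0) (av_sc hS hG one_ne_zero).2.2
  have et : range (S.top 1 fun i => (Q₁ i).map (f : W →+* κ)) = f '' range (S.top 1 Q₁) := by
    rw [← range_comp]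
    exact congrArg range (funext fun j => coeff_map _ _)
  refine ⟨V, inferInstance, inferInstance, inferInstance, G,
    fun k => ((hW k).map (IsScalarTower.toAlgHom ℂ W V)).mono (subset_univ _), ⟨hG, a0, r5⟩,
    Or.inr ⟨κ, inferInstance, inferInstance, inferInstance, P.res ℂ, u, _, _, hN', ⟨hN'.l1, ?_⟩,
      ⟨hN'.l2, ?_⟩, finite_empty, xp_top hN'.l1, ?_⟩⟩
  · rw [(x_ends_map 1 Q₁ f).1, rk_image]
    exact xp_fl hS h2 ht r4
  · rw [(x_ends_map 1 Q₂ f).1, rk_image]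
    refine xp_fl hS h1 ht.symm ?_
    rw [← ht, union_right_comm]
    exact r4
  · have h3 := rk_on hS (xp_top h1)
    have h4 : rk (∅ : Set κ) = 0 := by simp [rk]
    rw [empty_union, et, rk_image, h4]
    omega

theorem good_of_pair [IsAlgClosed W] (hS : S.Ok t n m) {R₁ R₂ : Fin S.M → W[X]}
    (h : S.Pair n R₁ R₂) : ∃ (V : Type) (_ : Field V) (_ : Algebra ℂ V)
    (_ : IsAlgClosed V) (G₀ : Fin S.M → V[X]), Big V ∧ S.Good n G₀ := by
  obtain ⟨V, _, _, _, f, hV⟩ := exists_big W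
  exact xp_big hS hV (xp_map h f)

end Vale.Agent.P292
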