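import Vale.Agent.P292.X.No
import Vale.Agent.P292.X.Pair

/-! P292 block X: existence of a good conic. See `notes/P292.md`. -/

open Polynomial Set Matrix

noncomputable section

namespace Vale.Agent.P292

open Vale.Agent.P271 Vale.Agent.P276

variable {K : Type} [Field K] [Algebra ℂ K] {N n m : ℕ} {t : Fin (N + 1) → K} {S : Cn K N}
  {W : Type} [Field W] [Algebra ℂ W]

theorem exists_good (hS : S.Ok t n m) : ∃ (W : Type) (_ : Field W) (_ : Algebra ℂ W)
    (_ : IsAlgClosed W) (G₀ : Fin S.M → W[X]), Big W ∧ S.Good n G₀ := by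
  by_cases h : ∀ (V : Type) [Field V] [Algebra ℂ V] [IsAlgClosed V] (R₁ R₂ : Fin S.M → V[X]),
      ¬ S.Pair n R₁ R₂
  · obtain ⟨W, _, _, _, G₀, hW, hG⟩ := x_exists_fc hS
    exact ⟨W, _, _, ‹_›, G₀, hW, hG, Or.inl h⟩
  · by_contra hc
    exact h fun V _ _ _ R₁ R₂ hp => hc (good_of_pair hS hp)

end Vale.Agent.P292
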