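import Vale.Agent.P292.X.Defs

/-! P292 X/Bas (task, block X of helper8). Helper names start with `xbas_`.
Plan. `x_ev_rev`: `Polynomial.eval₂_reflect_mul_pow` (with `invertibleOfNonzero`) or expand with `eval_eq_sum_range'`. `Ln.sc_right`: `Cn.LC.dil` with `δ = 1`. `Ln.sc_left`: `Cn.LC.scP` then `dil` by the inverse. `Ln.symm`: `Cn.LC.rev`. `Ln.map`: `Cn.LC.map`, `Cn.On.map`, `coeff_map`. `x_ln_of_e0`: take `ρ` with `ρ ^ (m * (n + 1)) = c` (`hS.fano.pos`, `IsAlgClosed.exists_pow_nat_eq`), then `sc ρ x` and `y` agree on `e0` (`hS.we0`), `hS.uniq`. -/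

open Polynomial Set Matrix

noncomputable section

namespace Vale.Agent.P292

open Vale.Agent.P271 Vale.Agent.P276

variable {K : Type} [Field K] [Algebra ℂ K] {N n m : ℕ} {t : Fin (N + 1) → K} {S : Cn K N}
  {W W' κ : Type} [Field W] [Algebra ℂ W] [Field W'] [Algebra ℂ W'] [Field κ] [Algebra ℂ κ] {δ : ℕ}
  {G R₁ R₂ : Fin S.M → W[X]} {x y z : Fin S.M → W}

theorem x_sc_sc (a b : W) (x : Fin S.M → W) : S.sc a (S.sc b x) = S.sc (a * b) x := by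
  funext i
  simp only [Cn.sc, mul_pow, mul_assoc]

theorem x_sc_one (x : Fin S.M → W) : S.sc 1 x = x := by
  funext i
  simp only [Cn.sc, one_pow, one_mul]

theorem x_sc_ne {c : W} (hc : c ≠ 0) (hx : x ≠ 0) : S.sc c x ≠ 0 := by
  intro h
  refine hx (funext fun i => ?_)
  exact (mul_eq_zero.1 (congrFun h i)).resolve_left (pow_ne_zero _ hc)

theorem x_sc_e0 (hS : S.Ok t n m) (c : W) (x : Fin S.M → W) :
    S.sc c x ∘ S.e0 = fun j => c ^ (m * (n + 1)) * (x ∘ S.e0) j := by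
  funext j
  simp only [Function.comp_apply, Cn.sc, hS.we0]

theorem x_ev_rev (h : ∀ i, (G i).natDegree ≤ δ * S.w i) {a : W} (ha : a ≠ 0) :
    S.ev G a = S.sc (a ^ δ) (S.ev (S.rev δ G) a⁻¹) := by
  funext i
  let _ := invertibleOfNonzero ha
  have h1 := eval₂_reflect_mul_pow (RingHom.id W) a _ _ (h i)
  rw [invOf_eq_inv, eval₂_id, eval₂_id] at h1
  simp only [Cn.ev, Cn.sc, Cn.rev]
  rw [← h1, ← pow_mul, mul_comm]

theorem x_ev_zero (G : Fin S.M → W[X]) : S.ev G 0 = cv G 0 := by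
  funext i
  exact (coeff_zero_eq_eval_zero _).symm

theorem x_ends_finite (δ : ℕ) (G : Fin S.M → W[X]) : (S.ends δ G).Finite ∧ (cf G).Finite ∧
    S.ends δ G ⊆ cf G := by
  refine ⟨(finite_range _).union (finite_range _), ?_, ?_⟩
  · refine ((finite_iUnion fun i => (G i).coeffs.finite_toSet).insert 0).subset ?_
    rintro _ ⟨i, j, rfl⟩
    by_cases h : (G i).coeff j = 0
    · exact Or.inl h
    · exact Or.inr (mem_iUnion.2 ⟨i, coeff_mem_coeffs h⟩)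
  · rintro _ (⟨i, rfl⟩ | ⟨i, rfl⟩)
    · exact ⟨i, _, rfl⟩
    · exact ⟨i, _, rfl⟩

theorem x_ends_map (δ : ℕ) (G : Fin S.M → W[X]) (f : W →ₐ[ℂ] W') :
    S.ends δ (fun i => (G i).map (f : W →+* W')) = f '' S.ends δ G ∧
      cf (fun i => (G i).map (f : W →+* W')) = f '' cf G := by
  constructor
  · rw [Cn.ends, Cn.ends, image_union, ← range_comp, ← range_comp]
    congr 2
    · funext i
      exact coeff_map _ _
    · funext i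
      exact coeff_map _ _
  · ext a
    constructor
    · rintro ⟨i, j, rfl⟩
      exact ⟨_, ⟨i, j, rfl⟩, (coeff_map (f : W →+* W') _).symm⟩
    · rintro ⟨_, ⟨i, j, rfl⟩, rfl⟩
      exact ⟨i, j, (coeff_map (f : W →+* W') _).symm⟩

theorem Cn.Ln.right (h : S.Ln x y) : S.On y ∧ y ≠ 0 := by
  obtain ⟨h1, h2, ⟨c, hc, rfl⟩ | ⟨G, hG, -, rfl⟩⟩ := h
  · exact ⟨h1.sc c, x_sc_ne hc h2⟩
  · obtain ⟨a1, a2, -⟩ := hG.rev
    rw [← a2]
    exact ⟨a1.cv_on.1, a1.cv_on.2.1⟩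

theorem Cn.Ln.sc_right (h : S.Ln x y) {c : W} (hc : c ≠ 0) : S.Ln x (S.sc c y) := by
  obtain ⟨h1, h2, ⟨d, hd, rfl⟩ | ⟨G, hG, rfl, rfl⟩⟩ := h
  · exact ⟨h1, h2, Or.inl ⟨c * d, mul_ne_zero hc hd, x_sc_sc _ _ _⟩⟩
  · obtain ⟨a1, a2, a3, -⟩ := hG.dil hc
    exact ⟨h1, h2, Or.inr ⟨_, a1, a2, by rw [a3, pow_one]⟩⟩

theorem Cn.Ln.sc_left (h : S.Ln x y) {c : W} (hc : c ≠ 0) : S.Ln (S.sc c x) y := by
  obtain ⟨h1, h2, ⟨d, hd, rfl⟩ | ⟨G, hG, rfl, rfl⟩⟩ := h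
  · refine ⟨h1.sc c, x_sc_ne hc h2, Or.inl ⟨d * c⁻¹, mul_ne_zero hd (inv_ne_zero hc), ?_⟩⟩
    rw [x_sc_sc, inv_mul_cancel_right₀ hc]
  · obtain ⟨a1, a2, a3, -⟩ := hG.scP hc
    have h3 : S.Ln (S.sc c (cv G 0)) (S.sc c (S.top 1 G)) :=
      ⟨h1.sc c, x_sc_ne hc h2, Or.inr ⟨_, a1, a2 0, a3⟩⟩
    have h4 := h3.sc_right (inv_ne_zero hc)
    rwa [x_sc_sc, inv_mul_cancel₀ hc, x_sc_one] at h4

theorem Cn.Ln.symm (h : S.Ln x y) : S.Ln y x := by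
  obtain ⟨b1, b2⟩ := h.right
  obtain ⟨-, -, ⟨d, hd, rfl⟩ | ⟨G, hG, rfl, rfl⟩⟩ := h
  · refine ⟨b1, b2, Or.inl ⟨d⁻¹, inv_ne_zero hd, ?_⟩⟩
    rw [x_sc_sc, inv_mul_cancel₀ hd, x_sc_one]
  · obtain ⟨a1, a2, a3, -⟩ := hG.rev
    exact ⟨b1, b2, Or.inr ⟨_, a1, a2, a3⟩⟩

theorem Cn.LC.ln (h : S.LC 1 G) : S.Ln (cv G 0) (S.top 1 G) := by
  exact ⟨h.cv_on.1, h.cv_on.2.1, Or.inr ⟨G, h, rfl, rfl⟩⟩

theorem Cn.Ln.map [IsAlgClosed W] (h : S.Ln x y) (f : W →ₐ[ℂ] W') :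
    S.Ln (fun i => f (x i)) fun i => f (y i) := by
  obtain ⟨h1, h2, h3⟩ := h
  refine ⟨h1.map f, fun h0 => h2 (funext fun i => ?_), ?_⟩
  · exact (map_eq_zero f).1 (congrFun h0 i)
  obtain ⟨d, hd, rfl⟩ | ⟨G, hG, rfl, rfl⟩ := h3
  · refine Or.inl ⟨f d, (map_ne_zero f).2 hd, funext fun i => ?_⟩
    simp only [Cn.sc, map_mul, map_pow]
  · exact Or.inr ⟨_, hG.map f, funext fun i => coeff_map (f : W →+* W') _,
      funext fun i => coeff_map (f : W →+* W') _⟩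

theorem x_ln_of_e0 [IsAlgClosed W] (hS : S.Ok t n m) (hx : S.On x) (h0 : x ≠ 0) (hy : S.On y) {c : W}
    (hc : c ≠ 0) (h : ∀ j, y (S.e0 j) = c * x (S.e0 j)) : ∃ ρ : W, ρ ≠ 0 ∧ y = S.sc ρ x := by
  have hp : 0 < m * (n + 1) := Nat.mul_pos hS.fano.pos n.succ_pos
  obtain ⟨ρ, rfl⟩ := IsAlgClosed.exists_pow_nat_eq c hp
  have hρ : ρ ≠ 0 := fun h1 => hc (by rw [h1, zero_pow hp.ne'])
  obtain ⟨ζ, h1, h2⟩ := hS.uniq W _ y (hx.sc ρ) hy (x_sc_ne hρ h0)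
    (by rw [x_sc_e0 hS]; exact funext fun j => (h j).symm)
  refine ⟨ζ * ρ, mul_ne_zero (fun h3 => ?_) hρ, by rw [h2, x_sc_sc]⟩
  rw [h3, zero_pow hp.ne'] at h1
  exact zero_ne_one h1

end Vale.Agent.P292
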