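import Vale.Agent.P292.X.Bas

/-! P292 X/Pol (task, block X of helper8). Helper names start with `xpol_`.
Plan. `x_pol_coeff`: `finsetSum_coeff`, `coeff_monomial`. `x_on_pol_sp`: let `U = xpol δ X` over the ring `MvPolynomial (XI δ) L`; `xpol δ β = map (aeval β) U`, so the coefficients of `aeval (xpol δ β) Q` are `aeval β` of the coefficients of `aeval U Q` (`MvPolynomial.aeval_algHom_apply` for `Polynomial.mapAlgHom` of the restricted algebra map). `x_coeff_mem_of_eval`: Lagrange interpolation at the points `algebraMap ℂ W k` (`Lagrange.eq_interpolate`, the interpolation polynomial lies in the subring `lifts`), or induction on the degree with `divByMonic (X - C a)`. `x_cf_sub_e0`: the values `ev G a` are points of the cone (`Cn.On.map` with `Polynomial.aeval a` restricted), `sub_cl_e0`. -/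

open Polynomial Set Matrix

noncomputable section

namespace Vale.Agent.P292

open Vale.Agent.P271 Vale.Agent.P276

variable {K : Type} [Field K] [Algebra ℂ K] {N n m : ℕ} {t : Fin (N + 1) → K} {S : Cn K N}
  {W W' κ : Type} [Field W] [Algebra ℂ W] [Field W'] [Algebra ℂ W'] [Field κ] [Algebra ℂ κ] {δ : ℕ}
  {G R₁ R₂ : Fin S.M → W[X]} {x y z : Fin S.M → W}

theorem x_pol_coeff {R : Type} [CommRing R] (β : S.XI δ → R) (i : Fin S.M) (k : Fin (δ * S.w i + 1)) :
    (S.xpol δ β i).coeff k = β ⟨i, k⟩ := by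
  rw [Cn.xpol, finsetSum_coeff, Finset.sum_eq_single k]
  · exact coeff_monomial_same _ _
  · exact fun j _ hj => coeff_monomial_of_ne _ fun e => hj (Fin.ext e.symm)
  · exact fun h => absurd (Finset.mem_univ k) h

theorem x_pol_deg {R : Type} [CommRing R] (β : S.XI δ → R) (i : Fin S.M) :
    (S.xpol δ β i).natDegree ≤ δ * S.w i :=
  natDegree_sum_le_of_forall_le _ _ fun k _ => (natDegree_monomial_le _).trans (Nat.lt_succ_iff.1 k.2)

theorem x_pol_cvec (h : ∀ i, (G i).natDegree ≤ δ * S.w i) : S.xpol δ (S.xvec δ G) = G := by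
  funext i
  ext j
  rcases lt_or_ge j (δ * S.w i + 1) with hj | hj
  · exact x_pol_coeff _ i ⟨j, hj⟩
  · rw [coeff_eq_zero_of_natDegree_lt ((x_pol_deg _ i).trans_lt hj),
      coeff_eq_zero_of_natDegree_lt ((h i).trans_lt hj)]

theorem x_range_sub_cf (β : S.XI δ → W) : range β ⊆ cf (S.xpol δ β) := by
  rintro _ ⟨⟨i, k⟩, rfl⟩
  exact ⟨i, k, (x_pol_coeff β i k).symm⟩

theorem x_indep_cvec {L : Type} [Field L] [Algebra L W] (h : ∀ i, (G i).natDegree ≤ δ * S.w i) {k : ℕ}
    (hk : Indep L (cf G) k) : Indep L (range (S.xvec δ G)) k := by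
  obtain ⟨y, hy, hi⟩ := hk
  refine ⟨y, fun l => ?_, hi⟩
  obtain ⟨i, j, e⟩ := hy l
  rcases lt_or_ge j (δ * S.w i + 1) with hj | hj
  · exact ⟨⟨i, ⟨j, hj⟩⟩, e.symm⟩
  · exact absurd (e.trans (coeff_eq_zero_of_natDegree_lt ((h i).trans_lt hj))) (hi.ne_zero l)

theorem x_redP_pol {k : Type} [Field k] [Algebra k W] [Algebra k κ] (P : Place k W κ)
    {β : S.XI δ → W} {β' : S.XI δ → κ} (h : P.RedV β β') : P.RedP (S.xpol δ β) (S.xpol δ β') := by
  intro i j
  rcases lt_or_ge j (δ * S.w i + 1) with hj | hj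
  · rw [x_pol_coeff β i ⟨j, hj⟩, x_pol_coeff β' i ⟨j, hj⟩]
    exact h _
  · rw [coeff_eq_zero_of_natDegree_lt ((x_pol_deg _ i).trans_lt hj),
      coeff_eq_zero_of_natDegree_lt ((x_pol_deg _ i).trans_lt hj)]
    exact Place.red_zero

theorem xpol_aeval {L : Type} [Field L] [Algebra ℂ L] [Algebra L W] [IsScalarTower ℂ L W]
    (β : S.XI δ → W) (P : MvPolynomial (Fin S.M) ℂ) :
    MvPolynomial.aeval (S.xpol δ β) P = (MvPolynomial.aeval
      (S.xpol δ (MvPolynomial.X : S.XI δ → MvPolynomial (S.XI δ) L)) P).map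
        (MvPolynomial.aeval β : MvPolynomial (S.XI δ) L →ₐ[L] W) := by
  have e1 : S.xpol δ β = fun i => mapAlgHom
      ((MvPolynomial.aeval β : MvPolynomial (S.XI δ) L →ₐ[L] W).restrictScalars ℂ)
      (S.xpol δ MvPolynomial.X i) := by
    funext i
    simp only [Cn.xpol, map_sum, mapAlgHom_monomial, AlgHom.restrictScalars_apply,
      MvPolynomial.aeval_X]
  rw [e1, ← MvPolynomial.comp_aeval_apply]
  rfl

theorem x_on_pol_sp {L : Type} [Field L] [Algebra ℂ L] [Algebra L W] [IsScalarTower ℂ L W]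
    [Algebra L W'] [IsScalarTower ℂ L W'] {β : S.XI δ → W} {β' : S.XI δ → W'} (h : Sp L β β')
    (h1 : S.On (S.xpol δ β)) : S.On (S.xpol δ β') := by
  intro k P hP h0
  have e1 := h1 k P hP h0
  rw [xpol_aeval (L := L)] at e1 ⊢
  ext j
  have e2 := congrArg (fun q => coeff q j) e1
  simp only [coeff_map, coeff_zero] at e2 ⊢
  exact h _ e2

theorem x_coeff_mem_of_eval (F : IntermediateField ℂ W) {p : W[X]}
    (h : ∀ c : ℂ, p.eval (algebraMap ℂ W c) ∈ F) (k : ℕ) : p.coeff k ∈ F := by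
  classical
  have hv : InjOn (fun j : ℕ => algebraMap ℂ W j) (Finset.range (p.natDegree + 1)) :=
    fun a _ b _ e => Nat.cast_injective ((algebraMap ℂ W).injective e)
  have e1 := Lagrange.eq_interpolate (f := p) hv (by
    rw [Finset.card_range]
    exact degree_le_natDegree.trans_lt (by exact_mod_cast Nat.lt_succ_self _))
  have hC : ∀ a ∈ F, C a ∈ (mapRingHom (algebraMap F W)).range := fun a ha =>
    ⟨C ⟨a, ha⟩, map_C _⟩
  have hX : X ∈ (mapRingHom (algebraMap F W)).range := ⟨X, map_X _⟩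
  have e2 : p ∈ (mapRingHom (algebraMap F W)).range := by
    rw [e1, Lagrange.interpolate_apply]
    refine sum_mem fun i _ => mul_mem (hC _ (h _)) (prod_mem fun j _ => ?_)
    exact mul_mem (hC _ (inv_mem (sub_mem (F.algebraMap_mem _) (F.algebraMap_mem _))))
      (sub_mem hX (hC _ (F.algebraMap_mem _)))
  obtain ⟨q, rfl⟩ := e2
  rw [coe_mapRingHom, coeff_map]
  exact (q.coeff k).2

theorem x_cf_sub_e0 (hS : S.Ok t n m) (h : S.On G) : cf G ⊆ cl (cf (G ∘ S.e0)) := by
  rintro _ ⟨i, j, rfl⟩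
  refine x_coeff_mem_of_eval _ (fun c => ?_) j
  have h1 : S.On fun i => (G i).eval (algebraMap ℂ W c) :=
    h.map ((Polynomial.aeval (algebraMap ℂ W c) : W[X] →ₐ[W] W).restrictScalars ℂ)
  refine cl_le ?_ (sub_cl_e0 hS h1 ⟨i, rfl⟩)
  rintro _ ⟨l, rfl⟩
  show (G (S.e0 l)).eval (algebraMap ℂ W c) ∈ cl _
  rw [eval_eq_sum_range]
  exact sum_mem fun k _ => mul_mem (subset_cl _ ⟨l, k, rfl⟩)
    (pow_mem (IntermediateField.algebraMap_mem _ c) k)

end Vale.Agent.P292
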