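import Vale.Agent.P292.X.Conn
import Vale.Agent.P292.X.Pol

/-! P292 X/Brk (task, block X of helper8). Helper names start with `xbrk_`.
Plan. By `x_cf_sub_e0` some coefficient `a` of `G ∘ e0` is not in `L = cl (ends δ G)`; `mem_cl_of_val` gives `O` with `Ov (ends) O`, `a ∉ O`; `place_of_subring (L := cl ends) O`; composite `ℂ`-algebra structure on `κ`. The ends are images of vectors `x₀`, `y₀` over `L` and reduce to their images in `κ` (`Place.red_algebraMap`). `np_break (P.res ℂ)` with `d = δ * (m * (n + 1))` (`hS.we0`, `Cn.On.on0`, `e0_ne`), `x_conn_ln` in `κ` (`0 < δ`, `hS.fano.pos`), `Ln.desc` to `L` (`cl_closed`), `Ln.map` with `(cl _).val`. -/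

open Polynomial Set Matrix

noncomputable section

namespace Vale.Agent.P292

open Vale.Agent.P271 Vale.Agent.P276

variable {K : Type} [Field K] [Algebra ℂ K] {N n m : ℕ} {t : Fin (N + 1) → K} {S : Cn K N}
  {W W' κ : Type} [Field W] [Algebra ℂ W] [Field W'] [Algebra ℂ W'] [Field κ] [Algebra ℂ κ] {δ : ℕ}
  {G R₁ R₂ : Fin S.M → W[X]} {x y z : Fin S.M → W}

theorem x_brk [IsAlgClosed W] (hS : S.Ok t n m) (hN : S.NoC) (hδ : 0 < δ)
    (ih : ∀ δ' < δ, ∀ (V : Type) [Field V] [Algebra ℂ V] [IsAlgClosed V] (G : Fin S.M → V[X]),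
      S.LC δ' G → S.Ln (cv G 0) (S.top δ' G)) (h : S.LC δ G) (hc : ¬ cf G ⊆ cl (S.ends δ G)) :
    S.Ln (cv G 0) (S.top δ G) := by
  obtain ⟨j₀, a₀, ha₀⟩ : ∃ j a, ((G ∘ S.e0) j).coeff a ∉ cl (S.ends δ G) := by
    by_contra hn
    push Not at hn
    refine hc ((x_cf_sub_e0 hS h.on).trans (cl_le ?_))
    rintro _ ⟨j, a, rfl⟩
    exact hn j a
  obtain ⟨O, hO, haO⟩ : ∃ O, Ov (S.ends δ G) O ∧ ((G ∘ S.e0) j₀).coeff a₀ ∉ O := by
    by_contra hn
    push Not at hn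
    exact ha₀ (mem_cl_of_val hn)
  obtain ⟨κ, _, _, _, P, hP⟩ := place_of_subring (L := cl (S.ends δ G)) O fun c => hO c c.2
  let _ : Algebra ℂ κ := ((algebraMap (cl (S.ends δ G)) κ).comp (algebraMap ℂ _)).toAlgebra
  have : IsScalarTower ℂ (cl (S.ends δ G)) κ := IsScalarTower.of_algebraMap_eq' rfl
  have := cl_closed (S.ends δ G)
  let x₀ : Fin S.M → cl (S.ends δ G) := fun i => ⟨cv G 0 i, subset_cl _ (Or.inl ⟨i, rfl⟩)⟩
  let y₀ : Fin S.M → cl (S.ends δ G) := fun i => ⟨S.top δ G i, subset_cl _ (Or.inr ⟨i, rfl⟩)⟩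
  let f : cl (S.ends δ G) →ₐ[ℂ] κ := IsScalarTower.toAlgHom ℂ _ κ
  have hx₀ : S.On x₀ := x_on_desc (cl (S.ends δ G)).val h.cv_on.1
  have hy₀ : S.On y₀ := x_on_desc (cl (S.ends δ G)).val (h.rev.2.1 ▸ h.rev.1.cv_on.1 : S.On (S.top δ G))
  have hx1 : x₀ ≠ 0 := fun e => h.cv_on.2.1 (funext fun i => congrArg Subtype.val (congrFun e i))
  have hy1 : y₀ ≠ 0 := fun e => h.top (funext fun i => congrArg Subtype.val (congrFun e i))
  have hne : ∀ z : Fin S.M → cl (S.ends δ G), z ≠ 0 → (fun i => f (z i)) ≠ 0 := fun z hz e =>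
    hz (funext fun i => (map_eq_zero f).1 (congrFun e i))
  have hcon : Conn (frm t) (δ * (m * (n + 1)) - 1) ((fun i => f (x₀ i)) ∘ S.e0)
      ((fun i => f (y₀ i)) ∘ S.e0) := by
    refine np_break (P.res ℂ) (fun p hp => hp.1) (F := G ∘ S.e0) (fun p hp => ?_) (fun j => ?_)
      (fun j => P.red_algebraMap (x₀ (S.e0 j))) (e0_ne hS (hx₀.map f) (hne _ hx1)) (fun j => ?_)
      (e0_ne hS (hy₀.map f) (hne _ hy1)) ⟨j₀, a₀, ?_⟩
    · obtain ⟨⟨e, he⟩, h2⟩ := hp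
      exact h.on.on0 hS e p he h2
    · rw [← hS.we0 j]
      exact h.deg _
    · rw [← hS.we0 j]
      exact P.red_algebraMap (y₀ (S.e0 j))
    · rw [← hP] at haO
      exact haO
  have hpos : 0 < δ * (m * (n + 1)) := Nat.mul_pos hδ (Nat.mul_pos hS.fano.pos n.succ_pos)
  have h1 := x_conn_ln hS hN (fun δ' hδ' => ih δ' hδ' κ) (Nat.sub_lt hpos one_pos) (hx₀.map f)
    (hne _ hx1) hcon _ (hy₀.map f) rfl
  exact (Cn.Ln.desc hS f h1).map (cl (S.ends δ G)).val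

end Vale.Agent.P292
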