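import Vale.Agent.P292.X.Gp

/-! P292 X/Conn (task, block X of helper8). Helper names start with `xcon_`.
Plan. `x_lk_ln`: unpack `Lk`, `exists_prim` writes `F = g * F'` with `Curve0 t F'` (`frm t` versus `On0 t`). Let `e = deg0 F'`; `F' j` has degree at most `e`, attained, so `natDegree g + e ≤ d`, and `y' ≠ 0` forces `y' j = g.coeff (d - e) * (F' j).coeff e` (`coeff_mul_add_eq_of_natDegree_le`), `x' j = g.coeff 0 * (F' j).coeff 0`. Lift `cv F' 0` (`hS.lift`), `exists_LC`, `Cn.LC.curve0` gives `e = δ' * (m * (n + 1))`, so `δ' < δ` and `top δ' G ∘ e0 = cv F' e` (`hS.we0`); `ih`, `x_ln_of_e0`, `sc_left`, `sc_right`. `x_conn_ln`: induction on `Conn` generalizing `y` (`x_ln_of_e0`, `hS.lift` at the intermediate point, `Lk.on`, `Conn.ne_zero`, `Ln.trans`). -/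

open Polynomial Set Matrix

noncomputable section

namespace Vale.Agent.P292

open Vale.Agent.P271 Vale.Agent.P276

variable {K : Type} [Field K] [Algebra ℂ K] {N n m : ℕ} {t : Fin (N + 1) → K} {S : Cn K N}
  {W W' κ : Type} [Field W] [Algebra ℂ W] [Field W'] [Algebra ℂ W'] [Field κ] [Algebra ℂ κ] {δ : ℕ}
  {G R₁ R₂ : Fin S.M → W[X]} {x y z : Fin S.M → W}

theorem xcon_root [IsAlgClosed W] (hS : S.Ok t n m) (hk : 0 < m * (n + 1)) {c : W} (hc : c ≠ 0)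
    (x : Fin S.M → W) {x' : Fin (N + 1) → W} (h : ∀ j, x (S.e0 j) = c * x' j) :
    ∃ ρ : W, ρ ≠ 0 ∧ S.sc ρ x ∘ S.e0 = x' := by
  obtain ⟨ρ, hρ⟩ := IsAlgClosed.exists_pow_nat_eq c⁻¹ hk
  refine ⟨ρ, fun h0 => inv_ne_zero hc (by rw [← hρ, h0, zero_pow hk.ne']), ?_⟩
  rw [x_sc_e0 hS, hρ]
  funext j
  rw [Function.comp_apply, h, inv_mul_cancel_left₀ hc]

theorem xcon_inv {ρ : W} (hρ : ρ ≠ 0) (x : Fin S.M → W) : S.sc ρ⁻¹ (S.sc ρ x) = x := by
  rw [x_sc_sc, inv_mul_cancel₀ hρ, x_sc_one]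

theorem x_lk_ln [IsAlgClosed W] (hS : S.Ok t n m)
    (ih : ∀ δ' < δ, ∀ G : Fin S.M → W[X], S.LC δ' G → S.Ln (cv G 0) (S.top δ' G)) {d : ℕ}
    (hd : d < δ * (m * (n + 1))) (hx : S.On x) (h0 : x ≠ 0) (hy : S.On y) (h1 : y ≠ 0)
    (h : Lk (frm t) d (x ∘ S.e0) (y ∘ S.e0)) : S.Ln x y := by
  obtain ⟨F, hF, hdeg, hF0, hFd⟩ := h
  have hx' := e0_ne hS hx h0
  have hy' := e0_ne hS hy h1
  have hk : 0 < m * (n + 1) := Nat.pos_of_ne_zero fun h => by simp [h] at hd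
  obtain ⟨g, F', hg, hmul, hon, hprim⟩ := exists_prim (fun p hp => hp.1) hF fun h => hx' (by
    funext j
    rw [← hF0 j, h]
    rfl)
  have hC : Curve0 t F' := ⟨fun d P hP h0 => hon P ⟨⟨d, hP⟩, h0⟩, hprim⟩
  have hle : ∀ j, (F' j).natDegree ≤ deg0 F' := fun j =>
    Finset.le_sup (f := fun j => (F' j).natDegree) (Finset.mem_univ j)
  have a1 : ∀ j, F' j ≠ 0 → g.natDegree + (F' j).natDegree ≤ d := fun j hj => by
    rw [← natDegree_mul hg hj, ← hmul]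
    exact hdeg j
  have a2 : g.natDegree ≤ d := by
    obtain ⟨j, hj⟩ := hprim 0
    exact le_trans (Nat.le_add_right _ _) (a1 j fun h => hj (by rw [h, eval_zero]))
  have a3 : deg0 F' ≤ d - g.natDegree := Finset.sup_le fun j _ => by
    by_cases hj : F' j = 0
    · simp [hj]
    · have := a1 j hj
      omega
  have b0 : ∀ j, x (S.e0 j) = g.coeff 0 * cv F' 0 j := fun j =>
    (hF0 j).symm.trans (by rw [hmul, mul_coeff_zero]; rfl)
  have b1 : ∀ j, y (S.e0 j) = g.coeff (d - deg0 F') * (F' j).coeff (deg0 F') := fun j => by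
    rw [← coeff_mul_add_eq_of_natDegree_le (by omega) (hle j), ← hmul,
      Nat.sub_add_cancel (by omega)]
    exact (hFd j).symm
  have c0 : g.coeff 0 ≠ 0 := fun h => hx' (funext fun j => by simpa [h] using b0 j)
  have c1 : g.coeff (d - deg0 F') ≠ 0 := fun h => hy' (funext fun j => by simpa [h] using b1 j)
  obtain ⟨ρ, hρ, hz⟩ := xcon_root hS hk c0 x b0
  obtain ⟨δ', G, hG, hGe, hG0, -⟩ := exists_LC hS hC (hx.sc ρ) hz
  have he := (hG.curve0 hS).2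
  rw [hGe] at he
  have L := ih δ' (Nat.lt_of_mul_lt_mul_right (a := m * (n + 1)) (by omega)) G hG
  obtain ⟨ρ', hρ', rfl⟩ := x_ln_of_e0 hS L.right.1 L.right.2 hy c1 fun j => by
    rw [b1, Cn.top, hS.we0, ← he, ← hGe]
    rfl
  have L' := (L.sc_right hρ').sc_left (inv_ne_zero hρ)
  rwa [hG0, xcon_inv hρ] at L'

theorem x_conn_ln [IsAlgClosed W] (hS : S.Ok t n m) (hN : S.NoC)
    (ih : ∀ δ' < δ, ∀ G : Fin S.M → W[X], S.LC δ' G → S.Ln (cv G 0) (S.top δ' G)) {B : ℕ}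
    (hB : B < δ * (m * (n + 1))) (hx : S.On x) (h0 : x ≠ 0) {y' : Fin (N + 1) → W}
    (h : Conn (frm t) B (x ∘ S.e0) y') : ∀ y, S.On y → y ∘ S.e0 = y' → S.Ln x y := by
  have hk : 0 < m * (n + 1) := Nat.pos_of_ne_zero fun h => by simp [h] at hB
  induction h with
  | refl =>
    intro y hy he
    exact ⟨hx, h0, Or.inl (x_ln_of_e0 hS hx h0 hy one_ne_zero fun j => by
      rw [one_mul]
      exact congrFun he j)⟩
  | sc c hc _ ih' =>
    intro y hy he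
    obtain ⟨ρ, hρ, hz⟩ := xcon_root hS hk hc y (congrFun he)
    have L := (ih' _ (hy.sc ρ) hz).sc_right (inv_ne_zero hρ)
    rwa [xcon_inv hρ] at L
  | lk d hd hc hl hz ih' =>
    intro z hz' he
    obtain ⟨y₀, k1, k2⟩ := hS.lift W _
      (fun d P hP h0 => (hl.on fun p hp => hp.1).1 P ⟨⟨d, hP⟩, h0⟩) (hc.ne_zero (e0_ne hS hx h0))
    have L := ih' y₀ k1 k2
    refine L.trans hS hN (x_lk_ln hS ih (hd.trans_lt hB) k1 L.right.2 hz' (fun h => hz ?_) ?_)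
    · rw [← he, h]
      rfl
    · rwa [k2, he]

end Vale.Agent.P292
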