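import Vale.Agent.P292.X.Defs
import Vale.Agent.P276R.F.Rel

/-! P292 X/Cut (task, block X of helper8). Helper names start with `xcut_`.
Plan. Krull. Either `exists_deform_rel` with `τ = Empty` and `I` the span of the renamed kernel of `aeval β` and the `f i` (a functional `lam` is determined by its values at the `f i`, so the map `lam ↦ (lam (f i))_i` to `Fin g → L` is injective on the span), or directly as in `frl_core`: `frl_fac` gives the ring `B = L[β]` with `ε : B → L`; take a minimal prime `p ≤ ker ε` over the span of the images of the `f i` (`Ideal.exists_minimalPrimes_le`, `Ideal.height_le_card_of_mem_minimalPrimes_span`), `fkr_fld`, `dim_rel`, `place_of_sp0`. -/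

open Polynomial Set Matrix

noncomputable section

namespace Vale.Agent.P292

open Vale.Agent.P271 Vale.Agent.P276

variable {K : Type} [Field K] [Algebra ℂ K] {N n m : ℕ} {t : Fin (N + 1) → K} {S : Cn K N}
  {W W' κ : Type} [Field W] [Algebra ℂ W] [Field W'] [Algebra ℂ W'] [Field κ] [Algebra ℂ κ] {δ : ℕ}
  {G R₁ R₂ : Fin S.M → W[X]} {x y z : Fin S.M → W}

theorem x_sp_cut {L σ V₀ : Type} [Field L] [Field V₀] [Algebra L V₀] [Fintype σ] {β : σ → V₀}
    {β₀ : σ → L} (h : Sp L β β₀) {g k : ℕ} (f : Fin g → MvPolynomial σ L)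
    (hf : ∀ i, MvPolynomial.eval β₀ (f i) = 0) (hk : Indep L (range β) (k + g)) :
    ∃ (V κ : Type) (_ : Field V) (_ : Algebra L V) (_ : IsAlgClosed V) (_ : Field κ)
      (_ : Algebra L κ) (_ : IsAlgClosed κ) (P : Place L V κ) (β' : σ → V), Sp L β β' ∧
      (∀ i, MvPolynomial.aeval β' (f i) = 0) ∧ P.RedV β' (fun i => algebraMap L κ (β₀ i)) ∧
        Indep L (range β') k := by
  classical
  obtain ⟨A, _, _, π, φ, ε, hπ, hφ, hfμ, hε⟩ := frl_fac (MvPolynomial.aeval β)
    (MvPolynomial.aeval β₀) h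
  have : IsNoetherianRing A := isNoetherianRing_of_surjective _ _ (π : MvPolynomial σ L →+* A) hπ
  have : (RingHom.ker ε).IsPrime := RingHom.ker_isPrime _
  obtain ⟨p, hp, hm⟩ := Ideal.exists_minimalPrimes_le
    (I := Ideal.span ((Finset.univ.image fun i => π (f i) : Finset A) : Set A))
    (J := RingHom.ker ε) (Ideal.span_le.2 fun x hx => by
      obtain ⟨i, -, rfl⟩ := Finset.mem_image.1 (Finset.mem_coe.1 hx)
      exact (hε _).trans (hf i))
  have hh : p.height ≤ g := (Ideal.height_le_card_of_mem_minimalPrimes_span_finset hp).trans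
    (by exact_mod_cast Finset.card_image_le.trans (by simp))
  have := hp.isPrime
  have : Algebra.FiniteType L A := Algebra.FiniteType.of_surjective π hπ
  let V := AlgebraicClosure (FractionRing (A ⧸ p))
  let ψ : A →ₐ[L] V := (IsScalarTower.toAlgHom L (A ⧸ p) V).comp (Ideal.Quotient.mkₐ L p)
  have hinj : Function.Injective (algebraMap (A ⧸ p) V) :=
    (algebraMap (FractionRing (A ⧸ p)) V).injective.comp
      (IsFractionRing.injective (A ⧸ p) (FractionRing (A ⧸ p)))
  have hψ : ∀ x, ψ x = 0 ↔ x ∈ p := fun x =>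
    ((map_eq_zero_iff _ hinj).trans Ideal.Quotient.eq_zero_iff_mem :)
  obtain ⟨κ, _, _, _, P, χ, h1, h2⟩ := exists_dom (ψ.comp π) (RingHom.ker (MvPolynomial.eval β₀))
    (RingHom.ker_isPrime _) fun x hx => (hε x).symm.trans (hm ((hψ _).1 hx))
  have e : (MvPolynomial.aeval fun i => ψ.comp π (MvPolynomial.X i)) = ψ.comp π :=
    (MvPolynomial.aeval_unique (ψ.comp π)).symm
  refine ⟨V, κ, inferInstance, inferInstance, inferInstance, inferInstance, inferInstance,
    inferInstance, P, fun i => ψ.comp π (MvPolynomial.X i), fun q hq => ?_, fun i => ?_,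
    fun i => ?_, ?_⟩
  · have h3 : π q = 0 := hφ (by rw [hfμ, hq, map_zero])
    rw [e, AlgHom.comp_apply, h3, map_zero]
  · rw [e]
    exact (hψ _).2 (hp.le (Ideal.subset_span
      (Finset.mem_coe.2 (Finset.mem_image_of_mem _ (Finset.mem_univ i)))))
  · have h3 := (h2 (MvPolynomial.X i - MvPolynomial.C (β₀ i))).2 (by simp [RingHom.mem_ker])
    rw [map_sub, sub_eq_zero, MvPolynomial.algHom_C] at h3
    show P.Red _ (algebraMap L κ (β₀ i))
    exact h3 ▸ h1 _
  · have h4 : Indep L (range ψ) k := dim_rel φ hφ ψ (g := g)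
      (by rw [show RingHom.ker ψ = p from Ideal.ext hψ]; exact hh)
      (hk.mono (by
        rintro _ ⟨i, rfl⟩
        exact ⟨π (MvPolynomial.X i), by rw [hfμ, MvPolynomial.aeval_X]⟩))
    refine h4.of_alg ?_
    rintro _ ⟨a, rfl⟩
    obtain ⟨q, rfl⟩ := hπ a
    refine Ind_mem ?_
    rw [Algebra.adjoin_range_eq_range_aeval, e]
    exact ⟨q, rfl⟩

end Vale.Agent.P292
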