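import Vale.Agent.P292.C.Main
import Vale.Agent.P276.E.GenA
import Vale.Agent.P276R.N.Main

/-! P292 X/Defs. Definitions for the chain argument (no task). -/

open Polynomial Set Matrix

noncomputable section

namespace Vale.Agent.P292

open Vale.Agent.P271 Vale.Agent.P276

variable {K : Type} [Field K] [Algebra ℂ K] {N n m : ℕ} {t : Fin (N + 1) → K} {S : Cn K N}
  {W W' κ : Type} [Field W] [Algebra ℂ W] [Field W'] [Algebra ℂ W'] [Field κ] [Algebra ℂ κ] {δ : ℕ}
  {G R₁ R₂ : Fin S.M → W[X]} {x y z : Fin S.M → W}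

namespace Cn

/-- All conics are tangent to the contact distribution. -/
def NoC (S : Cn K N) : Prop :=
  ∀ (V : Type) [Field V] [Algebra ℂ V] [IsAlgClosed V] (G : Fin S.M → V[X]), S.LC 2 G → S.Av G = 0

/-- The points `x`, `y` of the cone are proportional or joined by a line. -/
def Ln (S : Cn K N) (x y : Fin S.M → W) : Prop :=
  S.On x ∧ x ≠ 0 ∧ ((∃ c : W, c ≠ 0 ∧ y = S.sc c x) ∨ ∃ G, S.LC 1 G ∧ cv G 0 = x ∧ S.top 1 G = y)

/-- The index set of the coefficients of a curve of degree `δ`. -/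
abbrev XI (S : Cn K N) (δ : ℕ) : Type := Σ i : Fin S.M, Fin (δ * S.w i + 1)

/-- The coefficient vector. -/
def xvec (S : Cn K N) (δ : ℕ) {R : Type} [CommRing R] (G : Fin S.M → R[X]) : S.XI δ → R :=
  fun p => (G p.1).coeff p.2

/-- The curve with given coefficient vector. -/
def xpol (S : Cn K N) (δ : ℕ) {R : Type} [CommRing R] (β : S.XI δ → R) : Fin S.M → R[X] :=
  fun i => ∑ k : Fin (δ * S.w i + 1), monomial k (β ⟨i, k⟩)

end Cn

end Vale.Agent.P292
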