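import Vale.Agent.P292.X.Bas

/-! P292 X/Desc (task, block X of helper8). Helper names start with `xdes_`.
Plan. `x_mem_range_of_cl`: an element of `cl A` is algebraic over the field `f.fieldRange`, which is algebraically closed (or: minimal polynomial over `W` via `f.toAlgebra`, `IsAlgClosed.algebraMap_bijective_of_isIntegral`-type lemma, `minpoly` has degree one). `x_on_desc`: `f` is injective, `MvPolynomial.aeval_algHom_apply`. `x_lc_desc`: apply the same to `Polynomial.mapAlgHom f`; `eval_map`, `eval₂_at_apply`. `Ln.desc`: proportional case: `c ^ w i` lies in the range, `cl_pow`; line case: `line_rigid` puts all coefficients in the range, `lifts_iff_coeff_lifts`, `mem_lifts`. -/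

open Polynomial Set Matrix

noncomputable section

namespace Vale.Agent.P292

open Vale.Agent.P271 Vale.Agent.P276

variable {K : Type} [Field K] [Algebra ℂ K] {N n m : ℕ} {t : Fin (N + 1) → K} {S : Cn K N}
  {W W' κ : Type} [Field W] [Algebra ℂ W] [Field W'] [Algebra ℂ W'] [Field κ] [Algebra ℂ κ] {δ : ℕ}
  {G R₁ R₂ : Fin S.M → W[X]} {x y z : Fin S.M → W}

theorem x_mem_range_of_cl [IsAlgClosed W] (f : W →ₐ[ℂ] W') {A : Set W'} (hA : A ⊆ range f) {a : W'}
    (ha : a ∈ cl A) : a ∈ range f := by
  have : IsAlgClosed f.fieldRange :=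
    IsAlgClosed.of_ringEquiv W _ (AlgEquiv.ofInjectiveField f).toRingEquiv
  have h : IsAlgebraic f.fieldRange a := IsAlgebraic.tower_top_of_subalgebra_le
    (B := f.fieldRange.toSubalgebra) (Algebra.adjoin_le hA) (mem_cl.1 ha)
  obtain ⟨b, rfl⟩ := minpoly.mem_range_of_degree_eq_one f.fieldRange a
    (IsAlgClosed.degree_eq_one_of_irreducible _ (minpoly.irreducible h.isIntegral))
  exact b.2

theorem xdes_on {R R' : Type} [CommRing R] [Algebra ℂ R] [CommRing R'] [Algebra ℂ R']
    (f : R →ₐ[ℂ] R') (hf : Function.Injective f) {x : Fin S.M → R} (h : S.On fun i => f (x i)) :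
    S.On x := fun k P hP h0 =>
  hf (by rw [MvPolynomial.comp_aeval_apply, h k P hP h0, map_zero])

theorem x_on_desc (f : W →ₐ[ℂ] W') (h : S.On fun i => f (x i)) : S.On x := by
  exact xdes_on f f.injective h

theorem x_lc_desc (f : W →ₐ[ℂ] W') (h : S.LC δ fun i => (G i).map (f : W →+* W')) : S.LC δ G := by
  refine ⟨xdes_on (Polynomial.mapAlgHom f) (Polynomial.map_injective _ f.injective) h.on,
    fun i => (natDegree_map_eq_of_injective f.injective (G i)).ge.trans (h.deg i),
    fun a e => h.prim (f a) (funext fun i => ?_), fun e => h.top (funext fun i => ?_)⟩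
  · exact (eval_map_apply (f : W →+* W') a).trans ((congrArg f (congrFun e i)).trans (map_zero f))
  · exact (coeff_map _ _).trans ((congrArg f (congrFun e i)).trans (map_zero f))

theorem Cn.Ln.desc [IsAlgClosed W] [IsAlgClosed W'] (hS : S.Ok t n m) (f : W →ₐ[ℂ] W')
    (h : S.Ln (fun i => f (x i)) fun i => f (y i)) : S.Ln x y := by
  obtain ⟨h1, h2, h3⟩ := h
  refine ⟨x_on_desc f h1, fun e => h2 (funext fun i => by simp [e]), h3.imp ?_ ?_⟩
  · rintro ⟨c, hc, e⟩
    obtain ⟨i, hi⟩ := Function.ne_iff.1 h2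
    have e2 : c ^ S.w i = f (y i / x i) := by
      rw [map_div₀, eq_div_iff hi]
      exact (congrFun e i).symm
    obtain ⟨d, rfl⟩ := x_mem_range_of_cl f subset_rfl
      (cl_pow (hS.wpos i).ne' (subset_cl _ ⟨_, e2.symm⟩))
    refine ⟨d, fun e0 => hc (by rw [e0, map_zero]), funext fun j => f.injective ?_⟩
    exact (congrFun e j).trans (by simp [Cn.sc])
  · rintro ⟨G, g1, g2, g3⟩
    have k : ∀ i, ∃ q : W[X], q.map (f : W →+* W') = G i := fun i =>
      (mem_lifts _).1 ((lifts_iff_coeff_lifts _).2 fun j => x_mem_range_of_cl f (by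
        rw [Cn.ends, g2, g3]
        rintro _ (⟨i, rfl⟩ | ⟨i, rfl⟩) <;> exact ⟨_, rfl⟩) (line_rigid hS g1 ⟨i, j, rfl⟩))
    choose q hq using k
    obtain rfl : (fun i => (q i).map (f : W →+* W')) = G := funext hq
    exact ⟨q, x_lc_desc f g1,
      funext fun i => f.injective ((coeff_map _ _).symm.trans (congrFun g2 i)),
      funext fun i => f.injective ((coeff_map _ _).symm.trans (congrFun g3 i))⟩

end Vale.Agent.P292
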