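import Vale.Agent.P292.X.Bas

/-! P292 X/Red (task, block X of helper8). Helper names start with `xred_`.
Plan. `x_lc_of_red`: at an integral `a` the value `ev G a` reduces to `ev G' a'`, which is not zero; at a non integral `a` use `x_ev_rev`: `ev (rev δ G) a⁻¹` reduces to `ev (rev δ G') 0 = top δ G'` (reflect permutes coefficients, `coeff_reflect`). Tools: P276/B/Pl (`Red.add`, `Red.mul`, `Red.sum`, `redP_iff`, `exists_red`, `Red.left_ne`, `red_zero_iff`). `Ln.red`: proportional case: some `x i` is a unit, so `c ^ w i` is integral, `hS.wpos`, `c` is integral with residue `c'`, `y' = sc c' x'`, and `c' ≠ 0` since `y' ≠ 0`. Line case: `line_int` (`PV` from the reductions, `ov_empty P.mem`), build the reduction `G'` of `G` (sum of monomials, or `Place.pl_iff`), `line_red`; in its second case the relation is proportionality; `red_on`. -/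

open Polynomial Set Matrix

noncomputable section

namespace Vale.Agent.P292

open Vale.Agent.P271 Vale.Agent.P276

variable {K : Type} [Field K] [Algebra ℂ K] {N n m : ℕ} {t : Fin (N + 1) → K} {S : Cn K N}
  {W W' κ : Type} [Field W] [Algebra ℂ W] [Field W'] [Algebra ℂ W'] [Field κ] [Algebra ℂ κ] {δ : ℕ}
  {G R₁ R₂ : Fin S.M → W[X]} {x y z : Fin S.M → W}

theorem xred_ne {k α : Type} [Field k] [Algebra k W] [Algebra k κ] {P : Place k W κ}
    {u : α → W} {v : α → κ} (h : P.RedV u v) (h0 : v ≠ 0) : u ≠ 0 := by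
  obtain ⟨i, hi⟩ := Function.ne_iff.1 h0
  exact Function.ne_iff.2 ⟨i, (h i).left_ne hi⟩

theorem xred_pv {k α : Type} [Field k] [Algebra k W] [Algebra k κ] {P : Place k W κ}
    {u : α → W} {v : α → κ} (h : P.RedV u v) (h0 : v ≠ 0) : PV P.O u := by
  obtain ⟨i, hi⟩ := Function.ne_iff.1 h0
  exact ⟨fun a => (h a).1, i, (h i).val_eq_one hi⟩

theorem xred_pow {k : Type} [Field k] [Algebra k W] [Algebra k κ] {P : Place k W κ} {c : W}
    {c' : κ} (h : P.Red c c') (j : ℕ) : P.Red (c ^ j) (c' ^ j) := by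
  induction j with
  | zero => simpa using Place.red_one
  | succ j ih => rw [pow_succ, pow_succ]; exact ih.mul h

theorem x_lc_of_red {k : Type} [Field k] [Algebra k W] [Algebra k κ] (P : Place k W κ) (h : S.On G)
    (hd : ∀ i, (G i).natDegree ≤ δ * S.w i) {G' : Fin S.M → κ[X]} (hr : P.RedP G G')
    (h' : S.LC δ G') : S.LC δ G := by
  refine ⟨h, hd, fun a => ?_, xred_ne (P := P) (fun i => hr i _) h'.top⟩
  by_cases ha : a ∈ P.O
  · obtain ⟨a', ha'⟩ := Place.exists_red (P := P) ((P.O.valuation_le_one_iff a).2 ha)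
    exact xred_ne (hr.eval ha') (h'.prim a')
  · have ha0 : a ≠ 0 := fun e => ha (e ▸ P.O.zero_mem)
    have h1 : 1 < P.O.valuation a := not_le.1 fun e => ha ((P.O.valuation_le_one_iff a).1 e)
    have h2 : P.Red a⁻¹ 0 := Place.red_zero_iff.2 ((P.O.valuation.one_lt_val_iff ha0).1 h1)
    have h3 : P.RedP (S.rev δ G) (S.rev δ G') := fun i j => by
      simp only [Cn.rev, coeff_reflect]
      exact hr i _
    have h4 : (fun s => (S.rev δ G' s).eval 0) = S.top δ G' := by
      funext i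
      rw [← coeff_zero_eq_eval_zero, Cn.rev, coeff_reflect, revAt_zero]
      rfl
    have h5 := h3.eval h2
    rw [h4] at h5
    rw [x_ev_rev hd ha0]
    exact x_sc_ne (pow_ne_zero _ ha0) (xred_ne h5 h'.top)

theorem x_exists_redP {k α : Type} [Field k] [Algebra k W] [Algebra k κ] (P : Place k W κ)
    {F : α → W[X]} (h : ∀ a ∈ cf F, a ∈ P.O) : ∃ F' : α → κ[X], P.RedP F F' := by
  exact Place.exists_redP h

theorem Cn.Ln.red [IsAlgClosed W] [IsAlgClosed κ] (hS : S.Ok t n m) (h : S.Ln x y)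
    (P : Place ℂ W κ) {x' y' : Fin S.M → κ} (hx : P.RedV x x') (hy : P.RedV y y') (h0 : x' ≠ 0)
    (h1 : y' ≠ 0) : S.Ln x' y' := by
  obtain ⟨hon, -, ⟨c, -, rfl⟩ | ⟨G, hG, rfl, rfl⟩⟩ := h
  · refine ⟨red_on P hon hx, h0, Or.inl ?_⟩
    obtain ⟨i, hi⟩ := Function.ne_iff.1 h0
    have h2 := (hy i).val_le
    rw [Cn.sc, map_mul, map_pow, (hx i).val_eq_one hi, mul_one,
      pow_le_one_iff_of_nonneg zero_le (hS.wpos i).ne'] at h2
    obtain ⟨c', hc'⟩ := Place.exists_red h2
    have h3 : y' = S.sc c' x' := funext fun j => (hy j).unique ((xred_pow hc' _).mul (hx j))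
    refine ⟨c', fun e => h1 ?_, h3⟩
    funext j
    rw [h3, e, Cn.sc, zero_pow (hS.wpos j).ne', zero_mul, Pi.zero_apply]
  · obtain ⟨G', hr⟩ := Place.exists_redP (P := P)
      (line_int hS hG (ov_empty P.mem) (xred_pv hx h0) (xred_pv hy h1))
    have e1 : cv G' 0 = x' := funext fun i => (hr i 0).unique (hx i)
    have e2 : S.top 1 G' = y' := funext fun i => (hr i _).unique (hy i)
    refine ⟨red_on P hon hx, h0, ?_⟩
    rcases line_red hS hG P hr (e1 ▸ h0) (e2 ▸ h1) with h2 | ⟨c, hc, h2⟩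
    · exact Or.inr ⟨G', h2, e1, e2⟩
    · exact Or.inl ⟨c, hc, by rw [← e1, ← e2, h2]⟩

end Vale.Agent.P292
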