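import Vale.Agent.P292.X.Bas
import Vale.Agent.P276R.F.Dim

/-! P292 X/Sw (task, block X of helper8). Helper names start with `xsw_`.
Plan. The cone swept out by a line. `x_sp_par`: a vector of polynomials over `cl B'` in two independent parameters specialises to any values: `aeval q p = aeval u (bind)`, `algebraicIndependent_iff`. `x_sp_node`: let `B' = B ∪ cf G`, `u = (ρ, τ)` independent over `cl B'` (`exists_fresh_fam`), `q = sc ρ (ev (rev 1 G) τ)`. It specialises over `cl B'` to `top` (`ρ = 1`, `τ = 0`), and since `q = sc (ρ * τ) (ev G τ⁻¹)` (`x_ev_rev`) with `(ρ * τ, τ⁻¹)` again independent (`ai_iff_rk`, `rk_mono`) also to `cv G 0`. The line `dil ρ⁻¹ (scP ρ (sh τ (rev 1 G)))` starts at `q` with top `cv G 0`, so `line_rk` with `A = B` gives `rk (B ∪ range q) ≤ rk B + (n + 1)`. Restrict to `cl B` (prove `x_sp_par` directly for `L = cl B`, coefficients in `cl B'`), `sp_of_indep` with `rel_iff_rk`, `Sp.trans`. -/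

open Polynomial Set Matrix

noncomputable section

namespace Vale.Agent.P292

open Vale.Agent.P271 Vale.Agent.P276

variable {K : Type} [Field K] [Algebra ℂ K] {N n m : ℕ} {t : Fin (N + 1) → K} {S : Cn K N}
  {W W' κ : Type} [Field W] [Algebra ℂ W] [Field W'] [Algebra ℂ W'] [Field κ] [Algebra ℂ κ] {δ : ℕ}
  {G R₁ R₂ : Fin S.M → W[X]} {x y z : Fin S.M → W}

theorem xsw_par {L L' : IntermediateField ℂ W} (hB : L ≤ L') {ι τ : Type} {u : ι → W}
    (hu : AlgebraicIndependent L' u) (ψ : τ → MvPolynomial ι L') (v : ι → W) :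
    Sp L (fun i => MvPolynomial.aeval u (ψ i)) fun i => MvPolynomial.aeval v (ψ i) := by
  have h1 : Sp L' u v := fun p hp => by
    rw [algebraicIndependent_iff.1 hu p hp, map_zero]
  have h2 := h1.subst ψ
  obtain ⟨f, hf⟩ : ∃ f : L →+* L', (algebraMap L' W).comp f = algebraMap L W :=
    ⟨(IntermediateField.inclusion hB).toRingHom, RingHom.ext fun _ => rfl⟩
  have h3 : ∀ (x : τ → W) (p : MvPolynomial τ L),
      MvPolynomial.aeval x (MvPolynomial.map f p) = MvPolynomial.aeval x p := fun x p => by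
    rw [MvPolynomial.aeval_def, MvPolynomial.eval₂_map, hf, MvPolynomial.aeval_def]
  intro p hp
  rw [← h3] at hp ⊢
  exact h2 _ hp

theorem xsw_par2 {L L' : IntermediateField ℂ W} (hB : L ≤ L') {ι τ : Type} {u : ι → W}
    (hu : AlgebraicIndependent L' u) (φ : τ → MvPolynomial ι W)
    (hφ : ∀ i s, (φ i).coeff s ∈ L') (v : ι → W) :
    Sp L (fun i => MvPolynomial.eval u (φ i)) fun i => MvPolynomial.eval v (φ i) := by
  have h1 : ∀ (x : ι → W) i, MvPolynomial.aeval x (∑ s ∈ (φ i).support,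
      MvPolynomial.monomial s (⟨(φ i).coeff s, hφ i s⟩ : L')) = MvPolynomial.eval x (φ i) := by
    intro x i
    rw [map_sum, MvPolynomial.eval_eq]
    refine Finset.sum_congr rfl fun s _ => ?_
    rw [MvPolynomial.aeval_monomial]
    rfl
  have h2 := xsw_par hB hu (fun i => ∑ s ∈ (φ i).support,
    MvPolynomial.monomial s (⟨(φ i).coeff s, hφ i s⟩ : L')) v
  simp only [h1] at h2
  exact h2

theorem xsw_cone {L L' : IntermediateField ℂ W} (hB : L ≤ L') {u : Fin 2 → W}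
    (hu : AlgebraicIndependent L' u) (hG : cf G ⊆ L') :
    Sp L (S.sc (u 0) (S.ev G (u 1))) (cv G 0) := by
  have h1 : ∀ x : Fin 2 → W, (fun i => MvPolynomial.aeval x
      ((MvPolynomial.X 0 : MvPolynomial (Fin 2) L') ^ S.w i *
        ∑ k ∈ Finset.range ((G i).natDegree + 1),
          MvPolynomial.C (⟨(G i).coeff k, hG ⟨i, k, rfl⟩⟩ : L') * MvPolynomial.X 1 ^ k)) =
      S.sc (x 0) (S.ev G (x 1)) := by
    intro x
    funext i
    simp only [map_mul, map_pow, map_sum, MvPolynomial.aeval_X, MvPolynomial.aeval_C, Cn.sc, Cn.ev]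
    rw [eval_eq_sum_range]
    rfl
  have h2 := xsw_par hB hu (fun i => (MvPolynomial.X 0 : MvPolynomial (Fin 2) L') ^ S.w i *
    ∑ k ∈ Finset.range ((G i).natDegree + 1),
      MvPolynomial.C (⟨(G i).coeff k, hG ⟨i, k, rfl⟩⟩ : L') * MvPolynomial.X 1 ^ k) ![1, 0]
  rw [h1, h1] at h2
  have h3 : S.sc ((![1, 0] : Fin 2 → W) 0) (S.ev G ((![1, 0] : Fin 2 → W) 1)) = cv G 0 :=
    (x_sc_one _).trans (x_ev_zero G)
  rwa [h3] at h2

theorem xsw_cone2 {L L' : IntermediateField ℂ W} (hB : L ≤ L') {a b : W}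
    (hu : AlgebraicIndependent L' ![a, b]) (hG : cf G ⊆ L') :
    Sp L (S.sc a (S.ev G b)) (cv G 0) := by
  have h := xsw_cone hB hu hG
  exact h

theorem xsw_ne {L : IntermediateField ℂ W} {u : Fin 2 → W} (hu : AlgebraicIndependent L u)
    (i : Fin 2) : u i ≠ 0 := hu.ne_zero i

theorem xsw_ai {A : Set W} (hA : A.Finite) {u : Fin 2 → W} (hu : AlgebraicIndependent (cl A) u)
    (u1 : u 1 ≠ 0) : AlgebraicIndependent (cl A) ![u 0 * u 1, (u 1)⁻¹] := by
  refine (ai_iff_rk hA _).2 (((ai_iff_rk hA u).1 hu).trans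
    (rk_mono (hA.union (finite_range _)) ?_))
  have k0 : u 0 * u 1 ∈ cl (A ∪ range ![u 0 * u 1, (u 1)⁻¹]) := subset_cl _ (Or.inr ⟨0, rfl⟩)
  have k1 : (u 1)⁻¹ ∈ cl (A ∪ range ![u 0 * u 1, (u 1)⁻¹]) := subset_cl _ (Or.inr ⟨1, rfl⟩)
  have k4 : A ⊆ cl (A ∪ range ![u 0 * u 1, (u 1)⁻¹]) := fun a ha => subset_cl _ (Or.inl ha)
  generalize cl (A ∪ range ![u 0 * u 1, (u 1)⁻¹]) = L at k0 k1 k4
  have k2 := mul_mem k0 k1
  have k3 := inv_mem k1
  rw [mul_inv_cancel_right₀ u1] at k2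
  rw [inv_inv] at k3
  refine union_subset k4 (range_subset_iff.2 ?_)
  exact Fin.forall_fin_two.2 ⟨k2, k3⟩

theorem x_sp_par {B B' : Set W} (hB : B ⊆ cl B') {ι τ : Type} {u : ι → W}
    (hu : AlgebraicIndependent (cl B') u) (φ : τ → MvPolynomial ι W)
    (hφ : ∀ i s, (φ i).coeff s ∈ cl B') (v : ι → W) :
    Sp (cl B) (fun i => MvPolynomial.eval u (φ i)) fun i => MvPolynomial.eval v (φ i) := by
  exact xsw_par2 (cl_le hB) hu φ hφ v

theorem x_sp_node [IsAlgClosed W] (hS : S.Ok t n m) (hW : Big W) (h : S.LC 1 G) {B : Set W}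
    (hB : B.Finite) (h0 : range (cv G 0) ⊆ cl B)
    (hr : rk B + (n + 1) ≤ rk (B ∪ range (S.top 1 G))) : Sp (cl B) (S.top 1 G) (cv G 0) := by
  have hB' : (B ∪ cf G).Finite := hB.union (x_ends_finite 1 G).2.1
  have b1 : cl B ≤ cl (B ∪ cf G) := cl_mono subset_union_left
  have b2 : cf G ⊆ cl (B ∪ cf G) := fun a ha => subset_cl _ (Or.inr ha)
  obtain ⟨u, hu⟩ := exists_fresh_fam hW hB' (Fin 2)
  have u0 : u 0 ≠ 0 := xsw_ne hu 0
  have u1 : u 1 ≠ 0 := xsw_ne hu 1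
  obtain ⟨r1, r2, r3, r4, r5⟩ := h.rev
  have b3 : cf (S.rev 1 G) ⊆ cl (B ∪ cf G) := by
    rw [r5]
    exact b2
  have s1 := xsw_cone (G := S.rev 1 G) b1 hu b3
  rw [r2] at s1
  have s2 := xsw_cone2 b1 (xsw_ai hB' hu u1) b2
  have e : S.sc (u 0 * u 1) (S.ev G (u 1)⁻¹) = S.sc (u 0) (S.ev (S.rev 1 G) (u 1)) := by
    rw [x_ev_rev r1.deg u1, r4, x_sc_sc, pow_one]
  rw [e] at s2
  obtain ⟨a1, a2, a3, -⟩ := r1.sh (u 1)
  obtain ⟨c1, c2, c3, -⟩ := a1.scP u0
  obtain ⟨d1, d2, d3, -⟩ := c1.dil (inv_ne_zero u0)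
  rw [c3, a3, r3, x_sc_sc, pow_one, inv_mul_cancel₀ u0, x_sc_one] at d3
  have k := line_rk hS d1 hB (by rw [d3]; exact h0)
  rw [d2, c2, a2] at k
  refine (sp_of_indep s1 fun j hj => ?_).trans s2
  have k1 := (rel_iff_rk hB (finite_range _)).1 hj
  exact (rel_iff_rk hB (finite_range _)).2 (k1.trans (k.trans hr))

end Vale.Agent.P292
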