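import Vale.Agent.P292.X.Defs

/-! P292 X/Inj (task, block X of helper8). Helper names start with `xinj_`.
Plan. `x_exists_inj`: `hS.dim`, a basis of `TanS z` indexed by `Fin (2 * n + 2)`, extend the coordinate map to a linear map `ℓ` on `Fin S.M → W` (`LinearMap.exists_extend`), `a k i = ℓ (Pi.single i 1) k`. For `κ` make it a `W`-algebra by `f`; for each `W`-linear `φ : κ → W` the vector `φ ∘ δ` is tangent at `z` and killed by `ℓ`, hence zero; `Module.forall_dual_apply_eq_zero_iff`.
`x_eq_of_red`: if `z₁ - z₂ ≠ 0`, `Place.exists_nrm` writes it as `c • e` with `e` integral with residue `e' ≠ 0`, and `c` has residue `0`. Taylor formula over any commutative `ℂ`-algebra (induction on `Q`): `aeval (z + c • e) Q = aeval z Q + c * ∑ i, aeval z (pderiv i Q) * e i + c ^ 2 * r`; use it in the ring `P.O` (or carry the statement that `r` is integral in the induction), divide by `c`, reduce (`fdim_red`): `e'` is tangent at `z'`. -/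

open Polynomial Set Matrix

noncomputable section

namespace Vale.Agent.P292

open Vale.Agent.P271 Vale.Agent.P276

variable {K : Type} [Field K] [Algebra ℂ K] {N n m : ℕ} {t : Fin (N + 1) → K} {S : Cn K N}
  {W W' κ : Type} [Field W] [Algebra ℂ W] [Field W'] [Algebra ℂ W'] [Field κ] [Algebra ℂ κ] {δ : ℕ}
  {G R₁ R₂ : Fin S.M → W[X]} {x y z : Fin S.M → W}

theorem x_exists_inj (hS : S.Ok t n m) (h : S.On z) (h0 : z ≠ 0) :
    ∃ a : Fin (2 * n + 2) → Fin S.M → W, ∀ (κ : Type) [Field κ] [Algebra ℂ κ] (f : W →ₐ[ℂ] κ)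
      (v : Fin S.M → κ), S.Tan (fun i => f (z i)) v → (∀ k, ∑ i, f (a k i) * v i = 0) → v = 0 := by
  let b := Module.finBasisOfFinrankEq W (S.TanS z) (hS.dim W z h h0)
  obtain ⟨l, hl⟩ := LinearMap.exists_extend b.equivFun.toLinearMap
  refine ⟨fun k i => l (fun j => if i = j then 1 else 0) k, fun κ _ _ f v hv ha => ?_⟩
  have key : ∀ u : Fin S.M → W, S.Tan z u →
      (∀ k, ∑ i, l (fun j => if i = j then 1 else 0) k * u i = 0) → u = 0 := fun u hu hk => by
    have h1 : l u = 0 := by
      funext k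
      rw [LinearMap.pi_apply_eq_sum_univ, Finset.sum_apply]
      exact (Finset.sum_congr rfl fun i _ => mul_comm _ _).trans (hk k)
    have h2 : b.equivFun ⟨u, hu⟩ = 0 := (LinearMap.congr_fun hl ⟨u, hu⟩).symm.trans h1
    exact congrArg Subtype.val (b.equivFun.map_eq_zero_iff.1 h2)
  let _ : Algebra W κ := f.toRingHom.toAlgebra
  have e : ∀ (φ : Module.Dual W κ) (c : Fin S.M → W), ∑ i, f (c i) * v i = 0 →
      ∑ i, c i * φ (v i) = 0 := fun φ c hc => by
    have h1 := congrArg φ hc
    rw [map_sum, map_zero] at h1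
    rw [← h1]
    exact Finset.sum_congr rfl fun i _ => (φ.map_smul (c i) (v i)).symm
  funext i
  refine (Module.forall_dual_apply_eq_zero_iff W (v i)).1 fun φ => ?_
  refine congrFun (key (fun i => φ (v i)) (fun k Q hQ h1 => e φ _ ?_) fun k => e φ _ (ha k)) i
  rw [← hv k Q hQ h1]
  exact Finset.sum_congr rfl fun i _ => by rw [MvPolynomial.comp_aeval_apply]

theorem xinj_dq {σ : Type} [Fintype σ] (P : Place ℂ W κ) {x y e : σ → W} {z' e' : σ → κ} {c : W}
    (rx : P.RedV x z') (ry : P.RedV y z') (re : P.RedV e e') (h : ∀ i, x i = y i + c * e i)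
    (Q : MvPolynomial σ ℂ) : ∃ d, MvPolynomial.aeval x Q = MvPolynomial.aeval y Q + c * d ∧
      P.Red d (∑ i, MvPolynomial.aeval z' (MvPolynomial.pderiv i Q) * e' i) := by
  classical
  induction Q using MvPolynomial.induction_on with
  | C a => exact ⟨0, by simp, by simpa using Place.red_zero⟩
  | add p q hp hq =>
    obtain ⟨d, a1, a2⟩ := hp
    obtain ⟨d', b1, b2⟩ := hq
    refine ⟨d + d', by rw [map_add, map_add, a1, b1]; ring, ?_⟩
    simp only [map_add, add_mul, Finset.sum_add_distrib]
    exact a2.add b2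
  | mul_X p j hp =>
    obtain ⟨d, a1, a2⟩ := hp
    refine ⟨MvPolynomial.aeval y p * e j + d * x j, ?_, ?_⟩
    · rw [map_mul, map_mul, MvPolynomial.aeval_X, MvPolynomial.aeval_X, a1]
      linear_combination MvPolynomial.aeval y p * h j
    · have e1 : ∑ i, MvPolynomial.aeval z' (MvPolynomial.pderiv i (p * MvPolynomial.X j)) * e' i =
          MvPolynomial.aeval z' p * e' j +
            (∑ i, MvPolynomial.aeval z' (MvPolynomial.pderiv i p) * e' i) * z' j := by
        have e2 : MvPolynomial.aeval z' p * e' j =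
            ∑ i, if i = j then MvPolynomial.aeval z' p * e' i else 0 := by simp
        rw [e2, Finset.sum_mul, ← Finset.sum_add_distrib]
        refine Finset.sum_congr rfl fun i _ => ?_
        rw [MvPolynomial.pderiv_mul, map_add, map_mul, map_mul, MvPolynomial.aeval_X]
        split_ifs with k
        · rw [k, MvPolynomial.pderiv_X_self, map_one]
          ring
        · rw [MvPolynomial.pderiv_X_of_ne (Ne.symm k), map_zero]
          ring
      rw [e1]
      exact ((Place.Red.aeval ry p).mul (re j)).add (a2.mul (rx j))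

theorem x_eq_of_red (P : Place ℂ W κ) (hx : S.On x) (hy : S.On y) {z' : Fin S.M → κ}
    (rx : P.RedV x z') (ry : P.RedV y z') {ι : Type} {a : ι → Fin S.M → W} {a' : ι → Fin S.M → κ}
    (ha : ∀ k, P.RedV (a k) (a' k))
    (hi : ∀ v, S.Tan z' v → (∀ k, ∑ i, a' k i * v i = 0) → v = 0)
    (he : ∀ k, ∑ i, a k i * (x i - y i) = 0) : x = y := by
  by_contra hne
  obtain ⟨j, e', c0, e1, re⟩ := P.exists_nrm (x := x - y) (sub_ne_zero.2 hne)
  have h0 : e' = 0 := by
    refine hi e' (fun k Q hQ h1 => ?_) fun k => ?_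
    · obtain ⟨d, a1, a2⟩ := xinj_dq P rx ry re (c := (x - y) j)
        (fun i => by rw [mul_inv_cancel_left₀ c0, Pi.sub_apply, add_sub_cancel]) Q
      rw [hx k Q hQ h1, hy k Q hQ h1, zero_add, eq_comm, mul_eq_zero, or_iff_right c0] at a1
      rw [a1] at a2
      exact a2.unique Place.red_zero
    · have a1 := Place.Red.sum Finset.univ fun i _ => (ha k i).mul (re i)
      have a2 : ∑ i, a k i * (((x - y) j)⁻¹ * (x - y) i) = 0 := by
        rw [← mul_zero ((x - y) j)⁻¹, ← he k, Finset.mul_sum]
        exact Finset.sum_congr rfl fun i _ => mul_left_comm _ _ _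
      rw [a2] at a1
      exact a1.unique Place.red_zero
  rw [h0] at e1
  exact zero_ne_one e1

end Vale.Agent.P292
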