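import Vale.Agent.P292.X.Defs
import Vale.Agent.P276R.F.Disj

/-! P292 X/Joint (task, block X of helper8). Helper names start with `xjoi_`.
Plan. `exists_disj V₁ β₂` gives `V` over `E = V₁` and `γ₂`; put `γ₁ = algebraMap ∘ β₁`. `Sp E γ₂ (algebraMap ∘ a₂)` gives `Sp L (elim γ₁ γ₂) (elim β₁ (algebraMap ∘ a₂))` (substitute `β₁` first: `aeval (Sum.elim (C ∘ β₁) X) p`), and `Sp.subst h₁` with `Sum.elim X (C ∘ a₂)` goes on to `elim a₁ a₂`. Independence: last clause of `exists_disj` with `φ = X ∘ index`, `AlgebraicIndependent.sumElim_comp`, reindex by `finSumFinEquiv`. -/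

open Polynomial Set Matrix

noncomputable section

namespace Vale.Agent.P292

open Vale.Agent.P271 Vale.Agent.P276

variable {K : Type} [Field K] [Algebra ℂ K] {N n m : ℕ} {t : Fin (N + 1) → K} {S : Cn K N}
  {W W' κ : Type} [Field W] [Algebra ℂ W] [Field W'] [Algebra ℂ W'] [Field κ] [Algebra ℂ κ] {δ : ℕ}
  {G R₁ R₂ : Fin S.M → W[X]} {x y z : Fin S.M → W}

theorem xjoi_sub {L E σ τ V : Type} [Field L] [Field E] [Algebra L E] [Field V] [Algebra L V]
    [Algebra E V] [IsScalarTower L E V] (β : σ → E) (y : τ → V) (p : MvPolynomial (σ ⊕ τ) L) :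
    MvPolynomial.aeval y (MvPolynomial.aeval (Sum.elim (fun i => MvPolynomial.C (β i))
      MvPolynomial.X : σ ⊕ τ → MvPolynomial τ E) p) =
      MvPolynomial.aeval (Sum.elim (fun i => algebraMap E V (β i)) y) p := by
  have h := MvPolynomial.comp_aeval_apply (Sum.elim (fun i => MvPolynomial.C (β i))
    MvPolynomial.X : σ ⊕ τ → MvPolynomial τ E)
    ((MvPolynomial.aeval y : MvPolynomial τ E →ₐ[E] V).restrictScalars L) p
  refine h.trans (congrArg (fun z => MvPolynomial.aeval z p) (funext ?_))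
  rintro (i | j)
  · exact MvPolynomial.aeval_C y _
  · exact MvPolynomial.aeval_X y j

theorem x_sp_joint {L σ τ V₁ V₂ : Type} [Field L] [IsAlgClosed L] [Field V₁] [Algebra L V₁] [Field V₂]
    [Algebra L V₂] [Fintype σ] [Fintype τ] {β₁ : σ → V₁} {β₂ : τ → V₂} {a₁ : σ → L} {a₂ : τ → L}
    (h₁ : Sp L β₁ a₁) (h₂ : Sp L β₂ a₂) {k₁ k₂ : ℕ} (i₁ : Indep L (range β₁) k₁)
    (i₂ : Indep L (range β₂) k₂) : ∃ (V : Type) (_ : Field V) (_ : Algebra L V) (γ : σ ⊕ τ → V),
      Sp L β₁ (fun i => γ (Sum.inl i)) ∧ Sp L β₂ (fun i => γ (Sum.inr i)) ∧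
        Sp L γ (Sum.elim a₁ a₂) ∧ Indep L (range γ) (k₁ + k₂) := by
  obtain ⟨V, _, _, _, _, _, γ₂, s1, -, -, s2, -, s3⟩ := exists_disj (L := L) V₁ β₂
  refine ⟨V, inferInstance, inferInstance, Sum.elim (fun i => algebraMap V₁ V (β₁ i)) γ₂,
    sp_map (IsScalarTower.toAlgHom L V₁ V) β₁, s1, fun p hp => ?_, ?_⟩
  · have h3 := s2 V₁ _ (h₂.trans (sp_map (Algebra.ofId L V₁) a₂)) _
      ((xjoi_sub β₁ γ₂ p).trans hp)
    rw [xjoi_sub] at h3
    have h4 := h₁.subst (Sum.elim MvPolynomial.X fun j => MvPolynomial.C (a₂ j)) p (by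
      refine Eq.trans (congrArg (fun z => MvPolynomial.aeval z p) (funext ?_)) h3
      rintro (i | j)
      · exact MvPolynomial.aeval_X β₁ i
      · exact MvPolynomial.aeval_C β₁ _)
    refine Eq.trans (congrArg (fun z => MvPolynomial.aeval z p) (funext ?_)) h4
    rintro (i | j)
    · exact (MvPolynomial.aeval_X a₁ i).symm
    · exact (MvPolynomial.aeval_C a₁ (a₂ j)).symm
  · obtain ⟨y₁, m₁, j₁⟩ := i₁
    obtain ⟨y₂, m₂, j₂⟩ := i₂
    choose e₂ he₂ using m₂
    have h3 := s3 _ (fun i => MvPolynomial.X (e₂ i)) (by simpa only [MvPolynomial.aeval_X, he₂])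
    simp only [MvPolynomial.aeval_X] at h3
    have h4 := (j₁.sumElim_comp h3).comp _
      (finSumFinEquiv.symm.trans (Equiv.sumComm (Fin k₁) (Fin k₂))).injective
    refine ⟨_, fun j => ?_, h4⟩
    rw [Function.comp_apply]
    generalize (finSumFinEquiv.symm.trans (Equiv.sumComm (Fin k₁) (Fin k₂))) j = o
    rcases o with i | i
    · exact ⟨Sum.inr (e₂ i), rfl⟩
    · obtain ⟨l, hl⟩ := m₁ i
      exact ⟨Sum.inl l, congrArg (algebraMap V₁ V) hl⟩

end Vale.Agent.P292
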