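import Vale.Agent.P292.X.Pol
import Vale.Agent.P292.X.Red
import Vale.Agent.P292.X.Cut
import Vale.Agent.P292.X.Joint
import Vale.Agent.P292.X.Inj

/-! P292 X/Two (task, block X of helper8). Helper names start with `xtwo_`.
Plan. Helper: `deform` gives `β = xvec 1 G'` with `Sp W β (xvec 1 R)` (`Place.RedV.sp`, then `sp_of_inj` for `Algebra.ofId W κ`), `On (xpol 1 β)` and `Indep W (range β) (3 * (n + 1))`. `x_sp_joint`, then `x_sp_cut` with the `2 * n + 2` equations `∑ i, C (a k i) * (X (inl ⟨i, last⟩) - X (inr ⟨i, last⟩))` (`a` from `x_exists_inj` at the common top; `3 (n + 1) + 3 (n + 1) = (4 n + 4) + (2 n + 2)`). Put `Algebra ℂ V := ((algebraMap W V).comp (algebraMap ℂ W)).toAlgebra`, same for `κ` and the field of `x_sp_joint` (`IsScalarTower.of_algebraMap_eq'`). `R' = xpol 1 (β' ∘ inl)`: `x_on_pol_sp`, `Sp.comp`, `x_redP_pol`, `x_lc_of_red` with `Cn.LC.map`, tops agree by `x_eq_of_red (P.res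 ℂ)`; rank by `Indep.restrict`, `indep_iff_rk`, `x_range_sub_cf`. -/

open Polynomial Set Matrix

noncomputable section

namespace Vale.Agent.P292

open Vale.Agent.P271 Vale.Agent.P276

variable {K : Type} [Field K] [Algebra ℂ K] {N n m : ℕ} {t : Fin (N + 1) → K} {S : Cn K N}
  {W W' κ : Type} [Field W] [Algebra ℂ W] [Field W'] [Algebra ℂ W'] [Field κ] [Algebra ℂ κ] {δ : ℕ}
  {G R₁ R₂ : Fin S.M → W[X]} {x y z : Fin S.M → W}

theorem xtwo_def [IsAlgClosed W] (hS : S.Ok t n m) (h : S.LC 1 G) :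
    ∃ (V : Type) (_ : Field V) (_ : Algebra W V) (_ : Algebra ℂ V) (_ : IsScalarTower ℂ W V)
      (β : S.XI 1 → V), Sp W β (S.xvec 1 G) ∧ S.On (S.xpol 1 β) ∧
        Indep W (range β) (3 * (n + 1)) := by
  obtain ⟨V, κ, _, _, _, _, _, _, _, _, _, _, P, G', hG, hr, hi⟩ := deform hS h
  refine ⟨V, inferInstance, inferInstance, inferInstance, inferInstance, S.xvec 1 G', ?_, ?_,
    x_indep_cvec hG.deg hi⟩
  · have h1 : P.RedV (S.xvec 1 G') fun p => Algebra.ofId W κ (S.xvec 1 G p) := fun p => by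
      have h2 := hr p.1 p.2
      rwa [coeff_map] at h2
    exact h1.sp.trans (sp_of_inj (Algebra.ofId W κ) (algebraMap W κ).injective _)
  · rw [x_pol_cvec hG.deg]
    exact hG.on

theorem xtwo_red [IsAlgClosed W] (h : S.LC 1 G) (P : Place ℂ W' κ) (f : W →ₐ[ℂ] κ)
    {β : S.XI 1 → W'} (ho : S.On (S.xpol 1 β)) (hr : P.RedV β fun p => f (S.xvec 1 G p)) :
    S.LC 1 (S.xpol 1 β) ∧ P.RedP (S.xpol 1 β) (fun i => (G i).map (f : W →+* κ)) ∧
      P.RedV (S.top 1 (S.xpol 1 β)) fun i => f (S.top 1 G i) := by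
  have e : (fun p => f (S.xvec 1 G p)) = S.xvec 1 fun i => (G i).map (f : W →+* κ) :=
    funext fun p => (coeff_map (f : W →+* κ) _).symm
  have h1 := x_redP_pol P hr
  rw [e, x_pol_cvec (h.map f).deg] at h1
  refine ⟨x_lc_of_red P ho (x_pol_deg β) h1 (h.map f), h1, fun i => ?_⟩
  have h2 := h1 i (1 * S.w i)
  rwa [coeff_map] at h2

theorem x_two_deform [IsAlgClosed W] (hS : S.Ok t n m) (h1 : S.LC 1 R₁) (h2 : S.LC 1 R₂)
    (ht : S.top 1 R₁ = S.top 1 R₂) : ∃ (V κ : Type) (_ : Field V) (_ : Algebra ℂ V)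
      (_ : IsAlgClosed V) (_ : Field κ) (_ : Algebra ℂ κ) (_ : IsAlgClosed κ) (P : Place ℂ V κ)
      (f : W →ₐ[ℂ] κ) (Q₁ Q₂ : Fin S.M → V[X]), S.LC 1 Q₁ ∧ S.LC 1 Q₂ ∧ S.top 1 Q₁ = S.top 1 Q₂ ∧
        P.RedP Q₁ (fun i => (R₁ i).map (f : W →+* κ)) ∧
        P.RedP Q₂ (fun i => (R₂ i).map (f : W →+* κ)) ∧ 4 * n + 4 ≤ rk (cf Q₁ ∪ cf Q₂) := by
  obtain ⟨V₁, _, _, _, _, β₁, s1, o1, i1⟩ := xtwo_def hS h1
  obtain ⟨V₂, _, _, _, _, β₂, s2, o2, i2⟩ := xtwo_def hS h2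
  obtain ⟨V₀, _, _, γ, j1, j2, j3, j4⟩ := x_sp_joint s1 s2 i1 i2
  obtain ⟨a, ha⟩ := x_exists_inj hS h1.ln.right.1 h1.top
  obtain ⟨V, κ, _, _, _, _, _, _, P, β, c1, c2, c3, c4⟩ := x_sp_cut j3 (k := 4 * n + 4)
    (fun k => ∑ i, MvPolynomial.C (a k i) * (MvPolynomial.X (Sum.inl ⟨i, Fin.last _⟩) -
      MvPolynomial.X (Sum.inr ⟨i, Fin.last _⟩)))
    (fun k => by
      rw [map_sum]
      refine Finset.sum_eq_zero fun i _ => ?_
      rw [map_mul, map_sub, MvPolynomial.eval_X, MvPolynomial.eval_X]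
      exact mul_eq_zero_of_right _ (sub_eq_zero.2 (congrFun ht i)))
    (j4.of_le (by omega))
  let _ : Algebra ℂ V := ((algebraMap W V).comp (algebraMap ℂ W)).toAlgebra
  let _ : Algebra ℂ κ := ((algebraMap W κ).comp (algebraMap ℂ W)).toAlgebra
  have : IsScalarTower ℂ W V := IsScalarTower.of_algebraMap_eq' rfl
  have : IsScalarTower ℂ W κ := IsScalarTower.of_algebraMap_eq' rfl
  obtain ⟨l1, r1, t1⟩ := xtwo_red h1 (P.res ℂ) (IsScalarTower.toAlgHom ℂ W κ)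
    (x_on_pol_sp (j1.trans (c1.comp Sum.inl)) o1) fun p => c3 (Sum.inl p)
  obtain ⟨l2, r2, t2⟩ := xtwo_red h2 (P.res ℂ) (IsScalarTower.toAlgHom ℂ W κ)
    (x_on_pol_sp (j2.trans (c1.comp Sum.inr)) o2) fun p => c3 (Sum.inr p)
  rw [← ht] at t2
  refine ⟨V, κ, inferInstance, inferInstance, inferInstance, inferInstance, inferInstance,
    inferInstance, P.res ℂ, IsScalarTower.toAlgHom ℂ W κ, _, _, l1, l2, ?_, r1, r2, ?_⟩
  · refine x_eq_of_red (P.res ℂ) l1.ln.right.1 l2.ln.right.1 t1 t2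
      (a := fun k i => algebraMap W V (a k i)) (fun k i => P.red_algebraMap (a k i))
      (ha κ (IsScalarTower.toAlgHom ℂ W κ)) fun k => ?_
    refine Eq.trans ?_ (c2 k)
    rw [map_sum]
    refine Finset.sum_congr rfl fun i _ => ?_
    rw [map_mul, map_sub, MvPolynomial.aeval_X, MvPolynomial.aeval_X, MvPolynomial.aeval_C,
      ← x_pol_coeff (fun p => β (Sum.inl p)) i (Fin.last _),
      ← x_pol_coeff (fun p => β (Sum.inr p)) i (Fin.last _)]
    rfl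
  · refine (indep_iff_rk ((x_ends_finite 1 _).2.1.union (x_ends_finite 1 _).2.1)).1
      ((c4.restrict ℂ).mono ?_)
    rintro _ ⟨p | p, rfl⟩
    · exact Or.inl (x_range_sub_cf _ ⟨p, rfl⟩)
    · exact Or.inr (x_range_sub_cf _ ⟨p, rfl⟩)

end Vale.Agent.P292
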