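import Vale.Agent.P292.X.Nom
import Vale.Agent.P292.X.Sw
import Vale.Agent.P292.X.Red
import Vale.Agent.P292.X.Desc
import Vale.Agent.P292.X.Two

/-! P292 X/Gp (task, block X of helper8). Helper names start with `xgp_`.
Plan. `x_gp_big`: `a = cv R₁ 0`, `b = cv R₂ 0`, `B = range a ∪ range b`. `x_rk_three`, `x_rk_node`, `x_gen_of_big`, `x_nom_zero`, `gnode` give `rk B ≤ 3 n + 3`, `x_sp_node` gives `Sp (cl B) top a`. Write `a`, `b` as images of vectors `a₀`, `b₀` over the field `L = cl B` (`cl_closed`); `Sp L top a₀` (`sp_of_inj`), `place_of_sp0`, `Cn.Ln.red` for `h2.ln` and `P.res ℂ` (give `κ` the composite `ℂ`-algebra structure; `Place.red_algebraMap`), `Cn.Ln.desc` to `L`, `Cn.Ln.map` with `(cl B).val`, `symm`. `x_gp_ln`: `exists_big`, map the lines (`Cn.LC.map`, `x_ends_map`, `rk_image`), `desc`. `Ln.trans`: proportional cases by `sc_left`, `sc_right`; two lines: reverse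 the second one, `x_two_deform`, `x_gp_ln`, `Ln.red`, `Ln.desc`. -/

open Polynomial Set Matrix

noncomputable section

namespace Vale.Agent.P292

open Vale.Agent.P271 Vale.Agent.P276

variable {K : Type} [Field K] [Algebra ℂ K] {N n m : ℕ} {t : Fin (N + 1) → K} {S : Cn K N}
  {W W' κ : Type} [Field W] [Algebra ℂ W] [Field W'] [Algebra ℂ W'] [Field κ] [Algebra ℂ κ] {δ : ℕ}
  {G R₁ R₂ : Fin S.M → W[X]} {x y z : Fin S.M → W}

theorem xgp_ne (f : W →ₐ[ℂ] W') (h : x ≠ 0) : (fun i => f (x i)) ≠ 0 := fun h0 =>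
  h (funext fun i => (map_eq_zero f).1 (congrFun h0 i))

theorem xgp_cv (f : W →ₐ[ℂ] W') (G : Fin S.M → W[X]) :
    cv (fun i => (G i).map (f : W →+* W')) 0 = fun i => f (cv G 0 i) :=
  funext fun _ => coeff_map _ _

theorem xgp_top (f : W →ₐ[ℂ] W') (G : Fin S.M → W[X]) :
    S.top 1 (fun i => (G i).map (f : W →+* W')) = fun i => f (S.top 1 G i) :=
  funext fun _ => coeff_map _ _

theorem x_gp_big [IsAlgClosed W] (hS : S.Ok t n m) (hN : S.NoC) (hW : Big W) (h1 : S.LC 1 R₁)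
    (h2 : S.LC 1 R₂) (ht : S.top 1 R₁ = S.top 1 R₂) (hr : 4 * n + 4 ≤ rk (cf R₁ ∪ cf R₂)) :
    S.Ln (cv R₁ 0) (cv R₂ 0) := by
  have h3 := hr.trans (x_rk_three hS h1 h2 ht)
  have hg := x_gen_of_big hS h1.ln.right.1 h1.ln.right.2 (x_rk_node hS h1 h2 ht h3)
  have h4 := gnode hS h1 h2 ht h3 (x_nom_zero hS hN h1 h2 ht hg)
  rw [union_assoc, union_comm] at h3
  have ha : ∀ i, cv R₁ 0 i ∈ cl (range (cv R₁ 0) ∪ range (cv R₂ 0)) := fun i =>
    subset_cl _ (Or.inl ⟨i, rfl⟩)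
  have hb : ∀ i, cv R₂ 0 i ∈ cl (range (cv R₁ 0) ∪ range (cv R₂ 0)) := fun i =>
    subset_cl _ (Or.inr ⟨i, rfl⟩)
  have hsp := x_sp_node hS hW h1 ((finite_range _).union (finite_range (cv R₂ 0)))
    (range_subset_iff.2 ha) (by omega)
  have hc := cl_closed (range (cv R₁ 0) ∪ range (cv R₂ 0))
  generalize cl (range (cv R₁ 0) ∪ range (cv R₂ 0)) = L at ha hb hsp hc
  have hs : Sp L (S.top 1 R₁) fun i => (⟨cv R₁ 0 i, ha i⟩ : L) :=
    hsp.trans (sp_of_inj (Algebra.ofId L W) (algebraMap L W).injective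
      fun i => (⟨cv R₁ 0 i, ha i⟩ : L))
  obtain ⟨κ, _, _, _, P, hP⟩ := place_of_sp0 hs
  let _ : Algebra ℂ κ := ((algebraMap L κ).comp (algebraMap ℂ L)).toAlgebra
  have : IsScalarTower ℂ L κ := IsScalarTower.of_algebraMap_eq fun _ => rfl
  have a0 : (fun i => (⟨cv R₁ 0 i, ha i⟩ : L)) ≠ 0 := fun h0 =>
    h1.cv_on.2.1 (funext fun i => congrArg Subtype.val (congrFun h0 i))
  have b0 : (fun i => (⟨cv R₂ 0 i, hb i⟩ : L)) ≠ 0 := fun h0 =>
    h2.cv_on.2.1 (funext fun i => congrArg Subtype.val (congrFun h0 i))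
  rw [ht] at hP
  have h5 := h2.ln.red hS (P.res ℂ)
    (x' := fun i => IsScalarTower.toAlgHom ℂ L κ ⟨cv R₂ 0 i, hb i⟩)
    (y' := fun i => IsScalarTower.toAlgHom ℂ L κ ⟨cv R₁ 0 i, ha i⟩)
    (fun i => P.red_algebraMap ⟨cv R₂ 0 i, hb i⟩) hP (xgp_ne _ b0) (xgp_ne _ a0)
  exact ((h5.desc hS _).map L.val).symm

theorem x_gp_ln [IsAlgClosed W] (hS : S.Ok t n m) (hN : S.NoC) (h1 : S.LC 1 R₁)
    (h2 : S.LC 1 R₂) (ht : S.top 1 R₁ = S.top 1 R₂) (hr : 4 * n + 4 ≤ rk (cf R₁ ∪ cf R₂)) :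
    S.Ln (cv R₁ 0) (cv R₂ 0) := by
  obtain ⟨V, _, _, _, f, hV⟩ := exists_big W
  have h := x_gp_big hS hN hV (h1.map f) (h2.map f) (by rw [xgp_top, xgp_top, ht]) (by
    rwa [(x_ends_map 1 R₁ f).2, (x_ends_map 1 R₂ f).2, ← image_union, rk_image])
  rw [xgp_cv, xgp_cv] at h
  exact h.desc hS f

theorem Cn.Ln.trans [IsAlgClosed W] (hS : S.Ok t n m) (hN : S.NoC) (h : S.Ln x y)
    (h' : S.Ln y z) : S.Ln x z := by
  rcases h.2.2 with ⟨c, hc, rfl⟩ | ⟨R₁, h1, rfl, rfl⟩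
  · have h2 := h'.sc_left (inv_ne_zero hc)
    rwa [x_sc_sc, inv_mul_cancel₀ hc, x_sc_one] at h2
  rcases h'.2.2 with ⟨c, hc, rfl⟩ | ⟨R₂, h2, e, rfl⟩
  · exact h.sc_right hc
  obtain ⟨k1, k2, k3, -⟩ := h2.rev
  obtain ⟨V, κ, _, _, _, _, _, _, P, f, Q₁, Q₂, q1, q2, q3, r1, r2, hr⟩ :=
    x_two_deform hS h1 k1 (by rw [k3, e])
  have h3 := (x_gp_ln hS hN q1 q2 q3 hr).red hS P (x' := fun i => f (cv R₁ 0 i))
    (y' := fun i => f (cv (S.rev 1 R₂) 0 i)) (by rw [← xgp_cv]; exact fun i => r1 i 0)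
    (by rw [← xgp_cv]; exact fun i => r2 i 0) (xgp_ne f h1.cv_on.2.1) (xgp_ne f k1.cv_on.2.1)
  rw [← k2]
  exact h3.desc hS f

end Vale.Agent.P292
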