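import Vale.Agent.P292.X.Brk
import Vale.Agent.P276R.P.Main

/-! P292 X/Ind (task, block X of helper8). Helper names start with `xind_`.
Plan. `x_not_rigid`: otherwise `(δ + 2) * (n + 1) ≤ rk ends ≤ rk top + rk (cv G 0) ≤ 4 n + 4` (`rk_on`, `rk_union_le`, `Cn.LC.rev` for `On top`), so `δ = 2`, and `con_ne` with `A = range top` (`pj_sub`, `x_rk_pj_of`) contradicts `hN`. `x_ln_all`: strong induction on `δ`; `δ = 0`: `top 0 G = cv G 0`; `δ = 1`: `Cn.LC.ln`; else `deform`, `Indep.restrict`, `indep_iff_rk`, `x_not_rigid`, `x_brk`, `Ln.red (P.res ℂ)`, `Ln.desc`.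
`x_not_noC`: a point `v` with `OnX t v` (`exists_spec` in P276/H/BasicA, or `exists_pt_base`), `Fano.reach`, lift `v` over `ℂ` (`hS.lift ℂ`), map it to `W`, `exists_LC`. The generic parameter `a` is not zero (`Gen.rk_pj`, rank of a constant vector is `0`). `G₂ = sh a⁻¹ (rev δ G)` starts at a point proportional to `ev G a` (`x_ev_rev`, `x_sc_e0`, `pj_smul`) and has top `cv G 0`; `x_ln_all`; proportional case: rank `0 = 2 n + 1`; line case: `line_rk_pj` with `A = ∅`. -/

open Polynomial Set Matrix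

noncomputable section

namespace Vale.Agent.P292

open Vale.Agent.P271 Vale.Agent.P276

variable {K : Type} [Field K] [Algebra ℂ K] {N n m : ℕ} {t : Fin (N + 1) → K} {S : Cn K N}
  {W W' κ : Type} [Field W] [Algebra ℂ W] [Field W'] [Algebra ℂ W'] [Field κ] [Algebra ℂ κ] {δ : ℕ}
  {G R₁ R₂ : Fin S.M → W[X]} {x y z : Fin S.M → W}

theorem x_not_rigid [IsAlgClosed W] (hS : S.Ok t n m) (hN : S.NoC) (hδ : 2 ≤ δ) (h : S.LC δ G)
    (hr : (δ + 2) * (n + 1) ≤ rk (cf G)) : ¬ cf G ⊆ cl (S.ends δ G) := by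
  intro hc
  obtain ⟨e1, e2, -⟩ := x_ends_finite (S := S) δ G
  have hx := h.cv_on
  have hy : S.On (S.top δ G) := (on_rev h.on h.deg).2
  have r1 := rk_mono e1 hc
  have r2 : rk (S.ends δ G) ≤ rk (range (cv G 0)) + rk (range (S.top δ G)) :=
    rk_union_le (finite_range _) (finite_range _)
  have r3 := rk_on hS hx.1
  have r4 := rk_on hS hy
  have hδ2 : δ = 2 := by
    by_contra hne
    have h3 : 5 * (n + 1) ≤ (δ + 2) * (n + 1) := Nat.mul_le_mul_right _ (by omega)
    omega
  subst hδ2
  have r5 := x_rk_pj_of hS hx.1 hx.2.1 (finite_range (S.top 2 G))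
  have r6 : rk (S.ends 2 G) = rk (range (S.top 2 G) ∪ range (cv G 0)) := by
    rw [Cn.ends, union_comm]
  refine con_ne hS h (finite_range (S.top 2 G)) ?_ (by omega) (hN W G h)
  exact (pj_sub _).trans (cl_mono (range_comp_subset_range _ _))

theorem x_ln_all (hS : S.Ok t n m) (hN : S.NoC) (δ : ℕ) : ∀ (V : Type) [Field V] [Algebra ℂ V]
    [IsAlgClosed V] (G : Fin S.M → V[X]), S.LC δ G → S.Ln (cv G 0) (S.top δ G) := by
  induction δ using Nat.strong_induction_on with
  | _ δ ih =>
    intro V _ _ _ G h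
    rcases Nat.lt_or_ge δ 2 with hδ | hδ
    · obtain rfl | rfl : δ = 0 ∨ δ = 1 := by omega
      · refine ⟨h.cv_on.1, h.cv_on.2.1, Or.inl ⟨1, one_ne_zero, ?_⟩⟩
        rw [x_sc_one]
        funext i
        simp only [Cn.top, cv, zero_mul]
      · exact h.ln
    · obtain ⟨V', κ, _, _, _, _, _, _, _, _, _, _, P, G', h', hr, hi⟩ := deform hS h
      have h1 := (indep_iff_rk (x_ends_finite (S := S) δ G').2.1).1 (hi.restrict ℂ)
      have h2 := x_brk hS hN (by omega) ih h' (x_not_rigid hS hN hδ h' h1)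
      refine Cn.Ln.desc hS (IsScalarTower.toAlgHom ℂ V κ) (h2.red hS (P.res ℂ) ?_ ?_ ?_ ?_)
      · intro i
        have := hr i 0
        rw [coeff_map] at this
        exact this
      · intro i
        have := hr i (δ * S.w i)
        rw [coeff_map] at this
        exact this
      · intro e
        refine h.cv_on.2.1 (funext fun i => ?_)
        exact (map_eq_zero _).1 (congrFun e i)
      · intro e
        refine h.top (funext fun i => ?_)
        exact (map_eq_zero _).1 (congrFun e i)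

end Vale.Agent.P292
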