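import Vale.Agent.P292.X.Ind

/-! P292 X/No (task, block X of helper8). Helper names start with `xno_`.
Plan. See the header of X/Ind for `x_not_noC`. `x_exists_fc`: `deform` a conic with `Av ≠ 0`; `av_red (P.res ℂ)`, `av_map`, `Red.left_ne` give `Av G' ≠ 0`; `con_rigid`, `Indep.restrict`, `indep_iff_rk`, `rk_mono` give rank `4 n + 4` of the ends; `exists_big`, `Cn.LC.map`, `av_map`, `x_ends_map`, `rk_image`. -/

open Polynomial Set Matrix

noncomputable section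

namespace Vale.Agent.P292

open Vale.Agent.P271 Vale.Agent.P276

variable {K : Type} [Field K] [Algebra ℂ K] {N n m : ℕ} {t : Fin (N + 1) → K} {S : Cn K N}
  {W W' κ : Type} [Field W] [Algebra ℂ W] [Field W'] [Algebra ℂ W'] [Field κ] [Algebra ℂ κ] {δ : ℕ}
  {G R₁ R₂ : Fin S.M → W[X]} {x y z : Fin S.M → W}

theorem x_not_noC (hS : S.Ok t n m) : ¬ S.NoC := by
  intro hN
  obtain ⟨v, hv, -⟩ := P276.exists_spec (t := t) (x := t) (fun d P _ e => e) hS.fano.ff.1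
  obtain ⟨W, _, _, _, F, ⟨hF, a, ha⟩, h0⟩ := hS.fano.reach hv
  have e0 : cv F 0 = fun j => (F j).eval 0 := funext fun j => coeff_zero_eq_eval_zero _
  obtain ⟨z, hz, hze⟩ := hS.lift W (cv F 0) (e0 ▸ hF.1.eval 0) (by
    obtain ⟨j, hj⟩ := hF.2 0
    intro h
    exact hj (congrFun (e0.symm.trans h) j))
  obtain ⟨δ, G, hG, hGe, hG0, -⟩ := exists_LC hS hF hz hze
  have hc : pj (cv F 0) ⊆ cl (∅ : Set W) := by
    rintro _ ⟨i, j, rfl⟩
    have h1 : ∀ i, cv F 0 i ∈ cl (∅ : Set W) := fun i => by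
      rw [cv, h0]
      exact (cl _).algebraMap_mem _
    exact (cl _).div_mem (h1 i) (h1 j)
  have hz0 : rk (∅ : Set W) = 0 := by simp [rk]
  have hc' := rk_mono finite_empty hc
  have hr := ha.rk_pj hS.fano (hF.1.eval a)
  have ha0 : a ≠ 0 := by
    rintro rfl
    rw [← e0] at hr
    omega
  have h2 := hG.rev.1.sh a⁻¹
  have h3 := (x_ln_all hS hN δ W _ h2.1).sc_left (pow_ne_zero δ ha0)
  rw [h2.2.1, h2.2.2.1, hG.rev.2.2.1, hG0, ← x_ev_rev hG.deg ha0] at h3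
  have h4 : S.ev G a ∘ S.e0 = fun j => (F j).eval a := by
    rw [← hGe]
    rfl
  obtain ⟨-, -, ⟨c, hc0, h5⟩ | ⟨G', h5, h6, h7⟩⟩ := h3
  · rw [← hze, h5, x_sc_e0 hS, pj_smul (pow_ne_zero _ hc0), h4] at hc'
    omega
  · have h8 := line_rk_pj hS h5 finite_empty (by rw [h7, hze]; exact hc)
    rw [empty_union, h6, h4] at h8
    omega

theorem x_exists_fc (hS : S.Ok t n m) : ∃ (W : Type) (_ : Field W) (_ : Algebra ℂ W)
    (_ : IsAlgClosed W) (G₀ : Fin S.M → W[X]), Big W ∧ S.FC n G₀ := by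
  have h0 := x_not_noC hS
  unfold Cn.NoC at h0
  push Not at h0
  obtain ⟨V, _, _, _, G, hG, hA⟩ := h0
  obtain ⟨V', κ, _, _, _, _, _, _, _, _, _, _, P, G', hG', hr, hi⟩ := deform hS hG
  have h1 := av_red hS hG' (P.res ℂ) (G' := fun i => (G i).map
    (IsScalarTower.toAlgHom ℂ V κ : V →+* κ)) hr (hG.map (IsScalarTower.toAlgHom ℂ V κ)).cv_on.2.1
  rw [av_map hS hG] at h1
  have h2 : S.Av G' ≠ 0 := h1.left_ne ((_root_.map_ne_zero _).2 hA)
  have h3 := (indep_iff_rk (x_ends_finite 2 G').2.1).1 (hi.restrict ℂ)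
  have h4 := rk_mono (x_ends_finite 2 G').1 (con_rigid hS hG' h2)
  obtain ⟨U, _, _, _, f, hU⟩ := exists_big V'
  refine ⟨U, inferInstance, inferInstance, inferInstance, fun i => (G' i).map (f : V' →+* U), hU,
    hG'.map f, ?_, ?_⟩
  · rw [av_map hS hG']
    exact (_root_.map_ne_zero _).2 h2
  · rw [(x_ends_map 2 G' f).1, rk_image]
    omega

end Vale.Agent.P292
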