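import Vale.Agent.P292.X.Bas

/-! P292 X/Nom (task, block X of helper8). Helper names start with `xnom_`.
Plan. `x_rk_three`: `line_rigid` twice, `rk_mono`. `x_gen_of_big`: `sub_cl_e0`, `range_sub`, `rk_insert_le` give `rk (range z) ≤ rk (pj (z ∘ e0)) + 1`; `gen_of_rk hS.fano`, `Cn.On.on0`, `e0_ne`. `x_rk_node`: `line_rk` with `A = range top`, then with `A = range top ∪ range (cv R₁ 0)`. `x_nom_map`: `om_map` at `top = cv (rev 1 R) 0` (`Cn.LC.rev`, `cv_on`), `reflect_map`. `x_nom_zero`: `smooth2`, `node_est` for `P.res ℂ`; `Av G = 0` so `r = 0` (`Red.unique`, `red_zero`), `x_nom_map` with `IsScalarTower.toAlgHom ℂ W κ`. -/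

open Polynomial Set Matrix

noncomputable section

namespace Vale.Agent.P292

open Vale.Agent.P271 Vale.Agent.P276

variable {K : Type} [Field K] [Algebra ℂ K] {N n m : ℕ} {t : Fin (N + 1) → K} {S : Cn K N}
  {W W' κ : Type} [Field W] [Algebra ℂ W] [Field W'] [Algebra ℂ W'] [Field κ] [Algebra ℂ κ] {δ : ℕ}
  {G R₁ R₂ : Fin S.M → W[X]} {x y z : Fin S.M → W}

theorem x_rk_three [IsAlgClosed W] (hS : S.Ok t n m) (h1 : S.LC 1 R₁) (h2 : S.LC 1 R₂)
    (ht : S.top 1 R₁ = S.top 1 R₂) : rk (cf R₁ ∪ cf R₂) ≤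
      rk (range (S.top 1 R₁) ∪ range (cv R₁ 0) ∪ range (cv R₂ 0)) := by
  refine rk_mono (((finite_range _).union (finite_range _)).union (finite_range _))
    (union_subset ((line_rigid hS h1).trans (cl_mono ?_)) ((line_rigid hS h2).trans (cl_mono ?_)))
  · exact union_subset (subset_union_right.trans subset_union_left)
      (subset_union_left.trans subset_union_left)
  · rw [Cn.ends, ← ht]
    exact union_subset subset_union_right (subset_union_left.trans subset_union_left)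

theorem x_rk_pj_of (hS : S.Ok t n m) (h : S.On z) (h0 : z ≠ 0) {A : Set W} (hA : A.Finite) :
    rk (A ∪ range z) ≤ rk (A ∪ pj (z ∘ S.e0)) + 1 := by
  obtain ⟨i, hi⟩ := Function.ne_iff.1 (e0_ne hS h h0)
  have hf : (A ∪ pj (z ∘ S.e0)).Finite := hA.union (pj_finite _)
  refine le_trans (rk_mono (hf.insert ((z ∘ S.e0) i)) (union_subset ?_ ?_)) (rk_insert_le hf _)
  · exact (subset_union_left.trans (subset_insert _ _)).trans (subset_cl _)
  · exact (sub_cl_e0 hS h).trans (cl_le ((range_sub hi).trans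
      (cl_mono (insert_subset_insert subset_union_right))))

theorem x_gen_of_big (hS : S.Ok t n m) (h : S.On z) (h0 : z ≠ 0) (hr : 2 * n + 2 ≤ rk (range z)) :
    Gen t (z ∘ S.e0) := by
  have h1 := x_rk_pj_of hS h h0 finite_empty
  rw [empty_union, empty_union] at h1
  exact gen_of_rk hS.fano (h.on0 hS) (e0_ne hS h h0) (by omega)

theorem x_rk_node [IsAlgClosed W] (hS : S.Ok t n m) (h1 : S.LC 1 R₁) (h2 : S.LC 1 R₂)
    (ht : S.top 1 R₁ = S.top 1 R₂)
    (hr : 4 * n + 4 ≤ rk (range (S.top 1 R₁) ∪ range (cv R₁ 0) ∪ range (cv R₂ 0))) :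
    2 * n + 2 ≤ rk (range (S.top 1 R₁)) := by
  have h3 := line_rk hS h1 (finite_range (S.top 1 R₁)) (subset_cl _)
  have h4 := line_rk hS h2 ((finite_range (S.top 1 R₁)).union (finite_range (cv R₁ 0)))
    (ht ▸ subset_union_left.trans (subset_cl _))
  omega

theorem xnom_cv (δ k : ℕ) (G : Fin S.M → W[X]) (f : W →ₐ[ℂ] W') :
    cv (S.rev δ fun i => (G i).map (f : W →+* W')) k = fun i => f (cv (S.rev δ G) k i) := by
  funext i
  simp only [cv, Cn.rev, reflect_map, coeff_map]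
  rfl

theorem x_nom_map (hS : S.Ok t n m) (h1 : S.LC 1 R₁) (h2 : S.LC 1 R₂)
    (ht : S.top 1 R₁ = S.top 1 R₂) (f : W →ₐ[ℂ] W') :
    S.nom (fun i => (R₁ i).map (f : W →+* W')) (fun i => (R₂ i).map (f : W →+* W')) =
      f (S.nom R₁ R₂) := by
  obtain ⟨a1, a2, a3⟩ := h1.rev.1.cv_on
  have a4 := h2.rev.1.cv_on.2.2
  rw [h1.rev.2.1] at a1 a2 a3
  rw [h2.rev.2.1, ← ht] at a4
  have e : S.top 1 (fun i => (R₁ i).map (f : W →+* W')) = fun i => f (S.top 1 R₁ i) :=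
    funext fun i => coeff_map _ _
  rw [Cn.nom, Cn.nom, xnom_cv, xnom_cv, e]
  exact om_map hS a1 a2 a3 a4 f

theorem x_nom_zero [IsAlgClosed W] (hS : S.Ok t n m) (hN : S.NoC) (h1 : S.LC 1 R₁) (h2 : S.LC 1 R₂)
    (ht : S.top 1 R₁ = S.top 1 R₂) (hg : Gen t (S.top 1 R₁ ∘ S.e0)) : S.nom R₁ R₂ = 0 := by
  obtain ⟨V, κ, _, _, _, _, _, _, _, _, _, _, P, G, u, hG, hn⟩ := smooth2 hS h1 h2 ht hg
  obtain ⟨r, hr, h3⟩ := node_est hS hG (P.res ℂ) hn.ne hn.lt hn.r1 hn.r2 hn.l1.top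
  rw [hN V G hG, zero_div] at hr
  have h4 : r = 0 := hr.unique (P.res ℂ).red_zero
  have h5 := x_nom_map hS h1 h2 ht (IsScalarTower.toAlgHom ℂ W κ)
  have h6 : IsScalarTower.toAlgHom ℂ W κ (S.nom R₁ R₂) = 0 := by
    rw [← h5]
    rcases h3 with h3 | h3
    · exact h3.symm.trans h4
    · exact neg_eq_zero.1 (h3.symm.trans h4)
  exact (map_eq_zero_iff _ (IsScalarTower.toAlgHom ℂ W κ).injective).1 h6

end Vale.Agent.P292
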